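import Claimed.Agent.R315.Pack008
import Claimed.Agent.R315.Gs.Calc

/-!
# Row 315, SC-RIEM: GLOBAL level set identities (prefix `rm_`)

* Section A: the coordinate operators only depend on the germ of the metric matrix.
* Section B: the invariant scalars of `(M, h, t, q)` read in a lapse parametrisation:
  `|dq|² = v⁻²`, `⟨dq, df⟩ = e f / v`, `wmc q = rm_S = H - e t`.
* Section C: level sets `L = {q = c}`: `gradSq`, `gradIp`, `lap`, `Dsc` of `L` in the slice parametrisation;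
  `rm_level_gradSq`, `rm_level_Dsc_eq` (drift Gauss equation), `rm_level_Dsc` (= `ct_rm_level_*` of `Ct/Var.lean`).
Owner: helper39.
-/

set_option autoImplicit false
set_option linter.unusedSectionVars false
set_option linter.unusedVariables false
open scoped ContDiff Topology
open Claims.C0499

namespace Claimed.Agent.R315

/-! ## Section A: germs of metrics -/

section A

variable {d : ℕ} {G G' : rm_MF d} {u : E d}

theorem rm_entry_congr (hG : G =ᶠ[𝓝 u] G') (i j : Fin d) :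
    (fun w => G w i j) =ᶠ[𝓝 u] fun w => G' w i j :=
  hG.mono fun w hw => by show G w i j = G' w i j; rw [hw]

theorem rm_christoffel_congr (hG : G =ᶠ[𝓝 u] G') (k i j : Fin d) :
    christoffel G u k i j = christoffel G' u k i j := by
  unfold christoffel
  rw [hG.self_of_nhds]
  simp only [rm_pdiff_congr (rm_entry_congr hG _ _)]

theorem rm_riemann_congr (hG : G =ᶠ[𝓝 u] G') (l i j k : Fin d) :
    riemannCoord G u l i j k = riemannCoord G' u l i j k := by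
  have h1 : ∀ a b c : Fin d, (fun w => christoffel G w a b c) =ᶠ[𝓝 u]
      fun w => christoffel G' w a b c := fun a b c =>
    hG.eventuallyEq_nhds.mono fun w hw => rm_christoffel_congr hw a b c
  unfold riemannCoord
  simp only [rm_pdiff_congr (h1 _ _ _), rm_christoffel_congr hG]

theorem rm_scalar_congr (hG : G =ᶠ[𝓝 u] G') : scalarCoord G u = scalarCoord G' u := by
  unfold scalarCoord ricciCoord
  rw [hG.self_of_nhds]
  simp only [rm_riemann_congr hG]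

theorem rm_lap_congr_met (hG : G =ᶠ[𝓝 u] G') (f : E d → ℝ) : lapC G f u = lapC G' f u := by
  unfold lapC
  rw [hG.self_of_nhds]
  congr 1
  refine Finset.sum_congr rfl fun i _ => rm_pdiff_congr ?_
  exact hG.mono fun w hw => by
    show Real.sqrt (G w).det * ∑ j : Fin d, (G w)⁻¹ i j * pdiff f j w =
      Real.sqrt (G' w).det * ∑ j : Fin d, (G' w)⁻¹ i j * pdiff f j w
    rw [hw]

theorem rm_ip_congr_met (hG : G u = G' u) (f k : E d → ℝ) : gradIpC G f k u = gradIpC G' f k u := by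
  unfold gradIpC
  rw [hG]

theorem rm_sq_congr_met (hG : G u = G' u) (f : E d → ℝ) : gradSqC G f u = gradSqC G' f u := by
  unfold gradSqC
  rw [hG]

theorem rm_Dsc_congr_met (hG : G =ᶠ[𝓝 u] G') (t : E d → ℝ) : rm_DscC G t u = rm_DscC G' t u := by
  unfold rm_DscC
  rw [rm_scalar_congr hG, rm_lap_congr_met hG, rm_sq_congr_met hG.self_of_nhds]

end A

/-! ## Section B: invariant scalars in a lapse parametrisation -/

section B

variable {V : Type} [NormedAddCommGroup V] [NormedSpace ℝ V] [FiniteDimensional ℝ V]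
variable {d : ℕ} {M : Set V} {h : Ten V} {t q f : V → ℝ} {x0 : V} {ψ : E (d + 1) → V} {r : ℝ}
  {w : E (d + 1)}

theorem rm_LapseP.q_eq (hL : rm_LapseP M h q x0 ψ r) (hw : w ∈ rm_box d (q x0) r) :
    (fun w => q (ψ w)) =ᶠ[𝓝 w] rm_q0 d :=
  Filter.eventuallyEq_of_mem ((rm_box_open _ _).mem_nhds hw) fun w hw => hL.lvl w hw

theorem rm_glob_ip (hh : IsMetricOn (d + 1) M h) (hq : SmoothAlong (d + 1) M q)
    (hf : SmoothAlong (d + 1) M f) (hL : rm_LapseP M h q x0 ψ r) (hw : w ∈ rm_box d (q x0) r) :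
    gradIp (d + 1) M h q f (ψ w) =
      rm_e (cm h ψ) (fun w => f (ψ w)) w / rm_lps (cm h ψ) w := by
  rw [gs_ip_eq hh hq hf hL.par hw, rm_ip_congr (hL.q_eq hw) Filter.EventuallyEq.rfl,
    rm_dict_ip (hL.met hh) hL.orth hw]

theorem rm_glob_sq (hh : IsMetricOn (d + 1) M h) (hq : SmoothAlong (d + 1) M q)
    (hL : rm_LapseP M h q x0 ψ r) (hw : w ∈ rm_box d (q x0) r) :
    gradSq (d + 1) M h q (ψ w) = (rm_lps (cm h ψ) w ^ 2)⁻¹ := by
  rw [gs_sq_eq hh hq hL.par hw, if_gradSqC_eq, rm_ip_congr (hL.q_eq hw) (hL.q_eq hw),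
    ← if_gradSqC_eq, rm_dict_sq (hL.met hh) hL.orth hw]

theorem rm_glob_gradN (hh : IsMetricOn (d + 1) M h) (hq : SmoothAlong (d + 1) M q)
    (hL : rm_LapseP M h q x0 ψ r) (hw : w ∈ rm_box d (q x0) r) :
    gradN (d + 1) M h q (ψ w) = (rm_lps (cm h ψ) w)⁻¹ := by
  unfold gradN
  rw [rm_glob_sq hh hq hL hw, ← inv_pow,
    Real.sqrt_sq (inv_pos.2 (rm_lps_pos (hL.met hh) hw)).le]

theorem rm_glob_lap (hh : IsMetricOn (d + 1) M h) (hq : SmoothAlong (d + 1) M q)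
    (hL : rm_LapseP M h q x0 ψ r) (hw : w ∈ rm_box d (q x0) r) :
    lap (d + 1) M h q (ψ w) = rm_H (cm h ψ) w / rm_lps (cm h ψ) w -
      rm_e (cm h ψ) (rm_lps (cm h ψ)) w / rm_lps (cm h ψ) w ^ 2 := by
  rw [gs_lap_eq hh hq hL.par hw, rm_lap_congr (hL.q_eq hw), rm_dict_lap (hL.met hh) hL.orth hw]

/-- **the weighted mean curvature of the level sets is `S = H - e t`.** -/
theorem rm_glob_wmc (hM : IsMfd (d + 1) M) (hh : IsMetricOn (d + 1) M h)
    (ht : SmoothAlong (d + 1) M t)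
    (hq : SmoothAlong (d + 1) M q) (hL : rm_LapseP M h q x0 ψ r) (hw : w ∈ rm_box d (q x0) r) :
    wmc (d + 1) M h t q (ψ w) = rm_S (cm h ψ) (fun w => t (ψ w)) w := by
  have hmet := hL.met hh
  have hv := rm_lps_pos hmet hw
  have hsq : SmoothAlong (d + 1) M (gradSq (d + 1) M h q) := if_gradSq_smoothAlong hh hq
  have h3 : rm_e (cm h ψ) (fun w => gradSq (d + 1) M h q (ψ w)) w =
      - 2 * rm_e (cm h ψ) (rm_lps (cm h ψ)) w / rm_lps (cm h ψ) w ^ 3 := by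
    unfold rm_e
    rw [rm_pdiff_congr_on (rm_box_open _ _) hw (fun w hw => rm_glob_sq hh hq hL hw)]
    have hd := rm_da hmet.opn (rm_lps_smooth hmet) hw
    have hd2 : DifferentiableAt ℝ (fun w => rm_lps (cm h ψ) w ^ 2) w := hd.pow 2
    rw [rm_pdiff_inv hd2 (by positivity)]
    have e : (fun w => rm_lps (cm h ψ) w ^ 2) = fun w => rm_lps (cm h ψ) w * rm_lps (cm h ψ) w := by
      funext w; ring
    rw [e, rm_pdiff_mul hd hd]
    field_simp
    ring
  unfold wmc wlap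
  rw [rm_glob_lap hh hq hL hw, gs_ip_comm hM hh ht hq (if_mem hL.par hw),
    rm_glob_ip hh hq ht hL hw, rm_glob_gradN hh hq hL hw, rm_glob_ip hh hq hsq hL hw, h3]
  unfold rm_S
  field_simp
  ring

/-- smoothness of the weighted mean curvature of the level sets. -/
theorem rm_wmc_sm (hh : IsMetricOn (d + 1) M h) (ht : SmoothAlong (d + 1) M t)
    (hq : SmoothAlong (d + 1) M q) (hreg : ∀ y ∈ M, 0 < gradSq (d + 1) M h q y) :
    SmoothAlong (d + 1) M (wmc (d + 1) M h t q) := by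
  have hsq : SmoothAlong (d + 1) M (gradSq (d + 1) M h q) := if_gradSq_smoothAlong hh hq
  have hN : SmoothAlong (d + 1) M (gradN (d + 1) M h q) := gs_sm_sqrt hsq hreg
  have hN0 : ∀ y ∈ M, 0 < gradN (d + 1) M h q y := fun y hy => Real.sqrt_pos.2 (hreg y hy)
  exact gs_sm_sub (gs_sm_div (gs_wlap_sm hh ht hq) hN fun y hy => (hN0 y hy).ne')
    (gs_sm_div (if_gradIp_smoothAlong hh hq hsq) (gs_sm_smul 2 (gs_sm_pow hN 3))
      fun y hy => by have := hN0 y hy; positivity)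

end B

/-! ## Section C: level sets -/

section C

variable {V : Type} [NormedAddCommGroup V] [NormedSpace ℝ V] [FiniteDimensional ℝ V]
variable {d : ℕ} {M : Set V} {h : Ten V} {t q f k : V → ℝ} {x0 : V} {ψ : E (d + 1) → V} {r : ℝ}
  {w : E (d + 1)} {F K : E (d + 1) → ℝ}

/-- the level set of `q` through the value `c`. -/
def rm_Lv (M : Set V) (q : V → ℝ) (c : ℝ) : Set V := {x | x ∈ M ∧ q x = c}

theorem rm_Lv_sub (M : Set V) (q : V → ℝ) (c : ℝ) : rm_Lv M q c ⊆ M := fun _ hx => hx.1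

theorem rm_fs_congr {W : Set (E (d + 1))} (hW : IsOpen W) (hw : w ∈ W) {F' : E (d + 1) → ℝ}
    (hF : ∀ w ∈ W, F w = F' w) : rm_fs F (w 0) =ᶠ[𝓝 (rm_tl d w)] rm_fs F' (w 0) :=
  Filter.eventuallyEq_of_mem ((rm_Us_open hW (w 0)).mem_nhds (rm_mem_Us hw)) fun y hy => hF _ hy

theorem rm_LapseP.slice' (hL : rm_LapseP M h q x0 ψ r) (hw : w ∈ rm_box d (q x0) r) :
    IsParam (rm_Lv M q (w 0)) (fun y => ψ (rm_J (w 0) y)) (Metric.ball 0 r) := hL.slice hw.1

theorem rm_LapseP.tl_mem (hL : rm_LapseP M h q x0 ψ r) (hw : w ∈ rm_box d (q x0) r) :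
    rm_tl d w ∈ Metric.ball (0 : E d) r := mem_ball_zero_iff.2 hw.2

theorem rm_LapseP.slice_cm' (hL : rm_LapseP M h q x0 ψ r) (hw : w ∈ rm_box d (q x0) r) :
    cm h (fun y => ψ (rm_J (w 0) y)) =ᶠ[𝓝 (rm_tl d w)] rm_sl (cm h ψ) (w 0) :=
  Filter.eventuallyEq_of_mem (Metric.isOpen_ball.mem_nhds (hL.tl_mem hw))
    fun y hy => hL.slice_cm hw.1 hy

theorem rm_slice_ip (hM : IsMfd (d + 1) M) (hh : IsMetricOn (d + 1) M h)
    (hf : SmoothAlong (d + 1) M f) (hk : SmoothAlong (d + 1) M k)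
    (hL : rm_LapseP M h q x0 ψ r) (hw : w ∈ rm_box d (q x0) r)
    (hF : ∀ w ∈ rm_box d (q x0) r, F w = f (ψ w)) (hK : ∀ w ∈ rm_box d (q x0) r, K w = k (ψ w)) :
    gradIp d (rm_Lv M q (w 0)) h f k (ψ w) = rm_ipS (cm h ψ) F K w := by
  have h1 := gs_ip_eq (rm_sub_metric (d := d) (rm_Lv_sub M q (w 0)) hM hh)
    (rm_sub_smooth (rm_Lv_sub M q (w 0)) hM hf) (rm_sub_smooth (rm_Lv_sub M q (w 0)) hM hk)
    (hL.slice' hw) (hL.tl_mem hw)
  rw [rm_J_tl] at h1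
  rw [h1, rm_ip_congr_met (hL.slice_cm' hw).self_of_nhds]
  unfold rm_ipS
  exact (rm_ip_congr (rm_fs_congr (rm_box_open _ _) hw hF) (rm_fs_congr (rm_box_open _ _) hw hK)).symm

theorem rm_slice_lap (hM : IsMfd (d + 1) M) (hh : IsMetricOn (d + 1) M h)
    (hf : SmoothAlong (d + 1) M f)
    (hL : rm_LapseP M h q x0 ψ r) (hw : w ∈ rm_box d (q x0) r)
    (hF : ∀ w ∈ rm_box d (q x0) r, F w = f (ψ w)) :
    lap d (rm_Lv M q (w 0)) h f (ψ w) = rm_lapS (cm h ψ) F w := by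
  have h1 := gs_lap_eq (rm_sub_metric (d := d) (rm_Lv_sub M q (w 0)) hM hh)
    (rm_sub_smooth (rm_Lv_sub M q (w 0)) hM hf) (hL.slice' hw) (hL.tl_mem hw)
  rw [rm_J_tl] at h1
  rw [h1, rm_lap_congr_met (hL.slice_cm' hw)]
  unfold rm_lapS
  exact (rm_lap_congr (rm_fs_congr (rm_box_open _ _) hw hF)).symm

theorem rm_slice_wlap (hM : IsMfd (d + 1) M) (hh : IsMetricOn (d + 1) M h)
    (ht : SmoothAlong (d + 1) M t) (hf : SmoothAlong (d + 1) M f)
    (hL : rm_LapseP M h q x0 ψ r) (hw : w ∈ rm_box d (q x0) r)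
    (hF : ∀ w ∈ rm_box d (q x0) r, F w = f (ψ w)) :
    wlap d (rm_Lv M q (w 0)) h t f (ψ w) =
      rm_lapS (cm h ψ) F w - rm_ipS (cm h ψ) (fun w => t (ψ w)) F w := by
  unfold wlap
  rw [rm_slice_lap hM hh hf hL hw hF, rm_slice_ip hM hh ht hf hL hw (fun _ _ => rfl) hF]

theorem rm_slice_Dsc (hM : IsMfd (d + 1) M) (hh : IsMetricOn (d + 1) M h)
    (ht : SmoothAlong (d + 1) M t)
    (hL : rm_LapseP M h q x0 ψ r) (hw : w ∈ rm_box d (q x0) r) :
    Dsc d (rm_Lv M q (w 0)) h t (ψ w) = rm_DscS (cm h ψ) (fun w => t (ψ w)) w := by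
  have h1 := gs_Dsc_eq (rm_sub_metric (d := d) (rm_Lv_sub M q (w 0)) hM hh)
    (rm_sub_smooth (rm_Lv_sub M q (w 0)) hM ht) (hL.slice' hw) (hL.tl_mem hw)
  rw [rm_J_tl] at h1
  rw [h1, rm_Dsc_congr_met (hL.slice_cm' hw)]
  rfl

/-- **tangential gradient**: `⟨df,dk⟩_L = ⟨df,dk⟩_M - ⟨dq,df⟩⟨dq,dk⟩/|dq|²`. -/
theorem rm_level_ip (hM : IsMfd (d + 1) M) (hh : IsMetricOn (d + 1) M h)
    (hq : SmoothAlong (d + 1) M q) (hf : SmoothAlong (d + 1) M f) (hk : SmoothAlong (d + 1) M k)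
    {x : V} (hx : x ∈ M) (hreg : 0 < gradSq (d + 1) M h q x) :
    gradIp d (rm_Lv M q (q x)) h f k x = gradIp (d + 1) M h f k x -
      gradIp (d + 1) M h q f x * gradIp (d + 1) M h q k x / gradSq (d + 1) M h q x := by
  obtain ⟨ψ, r, hL⟩ := rm_orth_param hM hh hq hx hreg
  have hw : rm_J (q x) (0 : E d) ∈ rm_box d (q x) r := by
    refine ⟨by rw [rm_J_zero, sub_self, abs_zero]; exact hL.pos, ?_⟩
    rw [rm_tl_J, norm_zero]; exact hL.pos
  have hv := rm_lps_pos (hL.met hh) hw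
  have h1 := rm_slice_ip (F := fun w => f (ψ w)) (K := fun w => k (ψ w)) hM hh hf hk hL hw
    (fun _ _ => rfl) (fun _ _ => rfl)
  have h2 := rm_adm_ip (hL.met hh) hL.orth hw (hf ψ _ hL.par) (hk ψ _ hL.par)
  have h3 := gs_ip_eq hh hf hk hL.par hw
  have h4 := rm_glob_ip hh hq hf hL hw
  have h5 := rm_glob_ip hh hq hk hL hw
  have h6 := rm_glob_sq hh hq hL hw
  rw [rm_J_zero, hL.base] at h1
  rw [hL.base] at h3 h4 h5 h6
  rw [h1, h3, h4, h5, h6]
  have h2' : gradIpC (cm h ψ) (fun w => f (ψ w)) (fun w => k (ψ w)) (rm_J (q x) 0) =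
      rm_ipS (cm h ψ) (fun w => f (ψ w)) (fun w => k (ψ w)) (rm_J (q x) 0) +
      rm_e (cm h ψ) (fun w => f (ψ w)) (rm_J (q x) 0) *
        rm_e (cm h ψ) (fun w => k (ψ w)) (rm_J (q x) 0) := h2
  rw [h2']
  field_simp
  ring

/-- **drift Gauss equation for level sets**, inequality form (`|II|² ≥ 0` dropped), `v = 1/|dq|`:
`D_M + H_t² + 2 ⟨dq, dH_t⟩/|dq| + 2 Δ_{L,t} v / v ≤ D_L`. -/
theorem rm_level_Dsc_le (hM : IsMfd (d + 1) M) (hh : IsMetricOn (d + 1) M h)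
    (ht : SmoothAlong (d + 1) M t) (hq : SmoothAlong (d + 1) M q)
    (hreg : ∀ y ∈ M, 0 < gradSq (d + 1) M h q y) {x : V} (hx : x ∈ M) :
    Dsc (d + 1) M h t x + wmc (d + 1) M h t q x ^ 2 +
        2 * gradIp (d + 1) M h q (wmc (d + 1) M h t q) x / gradN (d + 1) M h q x +
        2 * wlap d (rm_Lv M q (q x)) h t (fun y => (gradN (d + 1) M h q y)⁻¹) x *
          gradN (d + 1) M h q x ≤
      Dsc d (rm_Lv M q (q x)) h t x := by
  obtain ⟨ψ, r, hL⟩ := rm_orth_param hM hh hq hx (hreg x hx)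
  have hw : rm_J (q x) (0 : E d) ∈ rm_box d (q x) r := by
    refine ⟨by rw [rm_J_zero, sub_self, abs_zero]; exact hL.pos, ?_⟩
    rw [rm_tl_J, norm_zero]; exact hL.pos
  have hmet := hL.met hh
  have hv := rm_lps_pos hmet hw
  have hsq : SmoothAlong (d + 1) M (gradSq (d + 1) M h q) := if_gradSq_smoothAlong hh hq
  have hN : SmoothAlong (d + 1) M (gradN (d + 1) M h q) := gs_sm_sqrt hsq hreg
  have hN0 : ∀ y ∈ M, 0 < gradN (d + 1) M h q y := fun y hy => Real.sqrt_pos.2 (hreg y hy)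
  have hvv : SmoothAlong (d + 1) M (fun y => (gradN (d + 1) M h q y)⁻¹) :=
    gs_sm_inv hN fun y hy => (hN0 y hy).ne'
  have hS := rm_wmc_sm hh ht hq hreg
  have h1 := rm_adm_Dsc (t := fun w => t (ψ w)) hmet hL.orth hw (ht ψ _ hL.par)
  have h2 := gs_Dsc_eq hh ht hL.par hw
  have h3 := rm_slice_Dsc hM hh ht hL hw
  have h4 := rm_glob_wmc hM hh ht hq hL hw
  have h5 := rm_glob_ip hh hq hS hL hw
  have h6 := rm_glob_gradN hh hq hL hw
  have h7 := rm_slice_wlap (F := rm_lps (cm h ψ)) hM hh ht hvv hL hw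
    (fun w hw => by rw [rm_glob_gradN hh hq hL hw, inv_inv])
  have h8 : rm_e (cm h ψ) (fun w => wmc (d + 1) M h t q (ψ w)) (rm_J (q x) 0) =
      rm_e (cm h ψ) (rm_S (cm h ψ) (fun w => t (ψ w))) (rm_J (q x) 0) := by
    unfold rm_e
    rw [rm_pdiff_congr_on (rm_box_open _ _) hw fun w hw => rm_glob_wmc hM hh ht hq hL hw]
  have h9 := rm_ip_comm (rm_sl_met hmet ((rm_J (q x) (0 : E d)) 0)) (rm_mem_Us hw)
    (rm_fs (rm_lps (cm h ψ)) ((rm_J (q x) (0 : E d)) 0))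
    (rm_fs (fun w => t (ψ w)) ((rm_J (q x) (0 : E d)) 0))
  have hJ : 0 ≤ rm_Jsq (cm h ψ) (rm_J (q x) 0) := rm_Jsq_nonneg hmet hw
  rw [rm_J_zero, hL.base] at h3 h7
  rw [hL.base] at h2 h4 h5 h6
  rw [h2, h3, h4, h5, h6, h7, h8]
  rw [h1]
  have h9' : rm_ipS (cm h ψ) (rm_lps (cm h ψ)) (fun w => t (ψ w)) (rm_J (q x) 0) =
      rm_ipS (cm h ψ) (fun w => t (ψ w)) (rm_lps (cm h ψ)) (rm_J (q x) 0) := h9
  rw [h9']
  field_simp
  nlinarith [hJ]

/-- tangential gradient on a level set (statement `ct_rm_level_gradSq` of `Ct/Var.lean`). -/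
theorem rm_level_gradSq (hG : CtGeo (d + 1) M h t) {φ : V → ℝ} (hφ : SmoothAlong (d + 1) M φ)
    {η : V → ℝ} (hη : SmoothAlong (d + 1) M η) {x : V} (hx : x ∈ M) (hx0 : φ x = 0)
    (hn : gradSq (d + 1) M h φ x = 1) :
    gradSq d {y | y ∈ M ∧ φ y = 0} h η x =
      gradSq (d + 1) M h η x - gradIp (d + 1) M h η φ x ^ 2 := by
  have h1 := rm_level_ip hG.mfd hG.met hφ hη hη hx (by rw [hn]; exact one_pos)
  rw [hn, hx0, gs_ip_comm hG.mfd hG.met hφ hη hx] at h1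
  show gradIp d (rm_Lv M φ 0) h η η x = gradIp (d + 1) M h η η x - _
  rw [h1]
  ring

/-- drift Gauss equation for a level set of a function with `|dφ| = 1` ALONG the level set
(statement `ct_rm_level_Dsc` of `Ct/Var.lean`). -/
theorem rm_level_Dsc (hG : CtGeo (d + 1) M h t) {φ : V → ℝ} (hφ : SmoothAlong (d + 1) M φ)
    (hreg : ∀ y ∈ M, 0 < gradSq (d + 1) M h φ y)
    (hn : ∀ y ∈ M, φ y = 0 → gradSq (d + 1) M h φ y = 1) {x : V} (hx : x ∈ M) (hx0 : φ x = 0) :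
    Dsc (d + 1) M h t x + wmc (d + 1) M h t φ x ^ 2 +
        2 * gradIp (d + 1) M h φ (wmc (d + 1) M h t φ) x ≤
      Dsc d {y | y ∈ M ∧ φ y = 0} h t x := by
  have h1 := rm_level_Dsc_le hG.mfd hG.met hG.drift hφ hreg hx
  have hN : ∀ y ∈ rm_Lv M φ 0, gradN (d + 1) M h φ y = 1 := fun y hy => by
    unfold gradN
    rw [hn y hy.1 hy.2, Real.sqrt_one]
  have hLm : IsMfd d (rm_Lv M φ 0) :=
    rm_level_mfd hG.mfd hG.met hφ fun y hy _ => hreg y hy
  have h2 : wlap d (rm_Lv M φ 0) h t (fun y => (gradN (d + 1) M h φ y)⁻¹) x = 0 := by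
    rw [gs_wlap_congr (f' := fun _ => (1 : ℝ)) fun y hy => by rw [hN y hy, inv_one]]
    exact gs_wlap_const hLm (rm_sub_metric (rm_Lv_sub M φ 0) hG.mfd hG.met)
      (rm_sub_smooth (rm_Lv_sub M φ 0) hG.mfd hG.drift) 1 ⟨hx, hx0⟩
  rw [hx0, h2, hN x ⟨hx, hx0⟩] at h1
  simp only [div_one, mul_zero, zero_mul, add_zero] at h1
  exact h1

end C

end Claimed.Agent.R315
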