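import Claimed.Agent.R315.Rm.VarC
import Claimed.Agent.R315.Pack004

/-!
# Row 315, SC-RIEM: the wall stability form (P Lemma B.8), final statement (prefix `rm_`)

`rm_stab` is EXACTLY the statement `ct_stab` of `Ct/Var.lean`.  Localisation of `rm_stab_ext` (`Rm/VarC.lean`) to a
neighbourhood `O` of the compact part `K ∩ ctBd` of the wall where a normalised defining function exists
(`ct_def_near`), and the level set identities `rm_level_gradSq`, `rm_level_Dsc` (`Rm/Glob.lean`).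
Owner: helper39.
-/

set_option autoImplicit false
set_option linter.unusedSectionVars false
set_option linter.unusedVariables false
open scoped ContDiff Topology ENNReal
open MeasureTheory Claims.C0499 Set

namespace Claimed.Agent.R315

variable {V : Type} [NormedAddCommGroup V] [NormedSpace ℝ V] [FiniteDimensional ℝ V]
  [MeasurableSpace V] [BorelSpace V]
variable {d : ℕ} {M : Set V} {h : Ten V} {t p : V → ℝ}

omit [MeasurableSpace V] [BorelSpace V] in
/-- the part of a compact set on the boundary is compact. -/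
theorem rm_compact_inter_bd (hM : IsMfd d M) (hd : 1 ≤ d) (A : Set V) {K : Set V}
    (hK : IsCompact K) (hKM : K ⊆ M) : IsCompact (K ∩ ctBd d M A) := by
  obtain ⟨hU, -, h13, h23⟩ := ct_trichotomy hM hd A
  obtain ⟨O₁, hO₁, e₁⟩ := ct_in_open hM A
  obtain ⟨O₂, hO₂, e₂⟩ := ct_out_open hM A
  have e : K ∩ ctBd d M A = K \ (O₁ ∪ O₂) := by
    ext x
    constructor
    · rintro ⟨hxK, hxB⟩
      refine ⟨hxK, ?_⟩
      rintro (hx | hx)
      · exact (Set.disjoint_left.1 h13) (e₁ ▸ (⟨hKM hxK, hx⟩ : x ∈ M ∩ O₁)) hxB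
      · exact (Set.disjoint_left.1 h23) (e₂ ▸ (⟨hKM hxK, hx⟩ : x ∈ M ∩ O₂)) hxB
    · rintro ⟨hxK, hx⟩
      refine ⟨hxK, ?_⟩
      have hxM : x ∈ ctIn d M A ∪ ctOut d M A ∪ ctBd d M A := by rw [hU]; exact hKM hxK
      rcases hxM with (hx1 | hx1) | hx1
      · rw [← e₁] at hx1
        exact (hx (Or.inl hx1.2)).elim
      · rw [← e₂] at hx1
        exact (hx (Or.inr hx1.2)).elim
      · exact hx1
  rw [e]
  exact hK.diff (hO₁.union hO₂)

/-- **the wall stability form** (P Lemma B.8), drift form: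
`∫_S (2|dη|²_S + D_S η²) ≥ ∫_S (D_M + p² - 2|dp|) η²`, `η` with compact support off `Σ`. -/
theorem rm_stab (hG : CtGeo (d + 1) M h t) (hd : 1 ≤ d) (hp : SmoothAlong (d + 1) M p) {A : Set V}
    (hA : CtLAM (d + 1) M h t p A) {η : V → ℝ} (hη : SmoothAlong (d + 1) M η) {K : Set V}
    (hK : IsCompact K) (hKM : K ⊆ M) (hKS : Disjoint K (ctSing (d + 1) M A))
    (hηK : ∀ x ∈ M, x ∉ K → η x = 0) :
    ∫ x, (Dsc (d + 1) M h t x + p x ^ 2 - 2 * gradN (d + 1) M h p x) * η x ^ 2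
        ∂(wper (d + 1) M h t A) ≤
      ∫ x, (2 * gradSq d (ctWall (d + 1) M A) h η x +
        Dsc d (ctWall (d + 1) M A) h t x * η x ^ 2) ∂(wper (d + 1) M h t A) := by
  set P := wper (d + 1) M h t A with hPdef
  set W := ctWall (d + 1) M A with hWdef
  set Bd := ctBd (d + 1) M A with hBddef
  have hWBd : W ⊆ Bd := ct_wall_subset_bd A
  have hBdM : Bd ⊆ M := ct_bd_subset A
  have hWM : W ⊆ M := hWBd.trans hBdM
  have hGW : CtGeo d W h t := ct_wall_geo hG A
  -- Step 1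
  set K₀ := K ∩ Bd with hK₀def
  have hK₀ : IsCompact K₀ := rm_compact_inter_bd hG.mfd (by omega) A hK hKM
  have hK₀W : K₀ ⊆ W := by
    rintro x ⟨hxK, hxB⟩
    by_contra hxW
    exact (Set.disjoint_left.1 hKS) hxK ⟨hxB, hxW⟩
  have hKW : ∀ x ∈ W, x ∉ K₀ → x ∉ K := fun x hxW hx hxK => hx ⟨hxK, hWBd hxW⟩
  -- Step 2
  obtain ⟨O, φ, hO, hK₀O, hφ, hn⟩ := ct_def_near hG hA.lf.meas hK₀ hK₀W
  -- Step 3
  obtain ⟨O₂, hO₂, hK₀O₂, hO₂O⟩ := normal_exists_closure_subset hK₀.isClosed hO hK₀O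
  obtain ⟨χ, O', hχ, h01, hO', hK₀O', h1, h0⟩ := rm_exists_bump hK₀ hO₂ hK₀O₂
  set η' : V → ℝ := fun x => χ x * η x with hη'def
  have hη'M : SmoothAlong (d + 1) M η' := gs_sm_mul (if_smoothAlong_of_contDiff hχ) hη
  -- Step 4
  have hGN : CtGeo (d + 1) (M ∩ O) h t := hG.inter hO
  have hAN : CtLAM (d + 1) (M ∩ O) h t p (A ∩ O) := hA.inter_open hG hO
  have hpN : SmoothAlong (d + 1) (M ∩ O) p := if_smoothAlong_inter hp hO
  have hη'N : SmoothAlong (d + 1) (M ∩ O) η' := if_smoothAlong_inter hη'M hO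
  have hc' : CtCS (M ∩ O) η' := by
    refine ⟨K ∩ closure O₂, hK.inter_right isClosed_closure,
      fun x hx => ⟨hKM hx.1, hO₂O hx.2⟩, fun x hx hxK => ?_⟩
    show χ x * η x = 0
    by_cases hxK' : x ∈ K
    · rw [h0 x fun hx2 => hxK ⟨hxK', subset_closure hx2⟩, zero_mul]
    · rw [hηK x hx.1 hxK', mul_zero]
  have key := rm_stab_ext hGN hpN hAN hφ hn hη'N hc'
  -- Step 5
  rw [ct_wper_inter hG hA.lf.meas hO] at key
  -- sets
  have hS : {y | y ∈ M ∩ O ∧ φ y = 0} = W ∩ O := by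
    rw [← (CtDef.sets hGN hφ).2.1, (ct_bd_inter hG.mfd A hO).2.1]
  have hBdO : ∀ x ∈ Bd, x ∈ O → x ∈ M ∩ O ∧ φ x = 0 := by
    intro x hxB hxO
    have h2 : x ∈ ctBd (d + 1) (M ∩ O) (A ∩ O) := by
      rw [(ct_bd_inter hG.mfd A hO).1]; exact ⟨hxB, hxO⟩
    rw [(CtDef.sets hGN hφ).1] at h2
    exact h2
  -- `η' = η` near every point of the boundary
  have hnear : ∀ x ∈ Bd, ∃ Q ∈ 𝓝 x, ∀ y ∈ M ∩ Q, η' y = η y := by
    intro x hxB
    by_cases hxK : x ∈ K
    · exact ⟨O', hO'.mem_nhds (hK₀O' ⟨hxK, hxB⟩), fun y hy => by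
        show χ y * η y = η y
        rw [h1 y hy.2, one_mul]⟩
    · exact ⟨Kᶜ, hK.isClosed.isOpen_compl.mem_nhds hxK, fun y hy => by
        show χ y * η y = η y
        rw [hηK y hy.1 hy.2, mul_zero]⟩
  have hηW : SmoothAlong d W η := ct_wall_smooth hG A hη
  have hη'W : SmoothAlong d W η' := ct_wall_smooth hG A hη'M
  -- the two sides
  set R : V → ℝ := fun x => 2 * gradSq d W h η x + Dsc d W h t x * η x ^ 2 with hR
  set L : V → ℝ := fun x =>
    (Dsc (d + 1) M h t x + p x ^ 2 - 2 * gradN (d + 1) M h p x) * η x ^ 2 with hL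
  have hPW : P = wvol d W h t := CtLAM.wper_eq hG hp hA hd
  have iR : Integrable R P := by
    rw [hPW]
    refine rm_int_wvol hGW (if_smoothAlong_continuousOn hGW.mfd
      (gs_sm_add (gs_sm_smul 2 (if_gradSq_smoothAlong hGW.met hηW))
        (gs_sm_mul (gs_Dsc_sm hGW.met hGW.drift) (gs_sm_pow hηW 2)))) ⟨K₀, hK₀, hK₀W, ?_⟩
    intro x hxW hxK₀
    have hxK := hKW x hxW hxK₀
    show 2 * gradSq d W h η x + Dsc d W h t x * η x ^ 2 = 0
    rw [hηK x (hWM hxW) hxK]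
    have : gradSq d W h η x = 0 := rm_ip_zero_left hGW.mfd hGW.met hηW hK.isClosed
      (fun y hy hyK => hηK y (hWM hy) hyK) hxW hxK
    rw [this]
    ring
  have iL : Integrable L P := by
    refine rm_int_wper hG hA.lf ?_ ⟨K, hK, hKM, fun x hx hxK => ?_⟩
    · have c1 := if_smoothAlong_continuousOn hG.mfd (gs_Dsc_sm hG.met hG.drift)
      have c2 := if_smoothAlong_continuousOn hG.mfd hp
      have c3 := if_smoothAlong_continuousOn hG.mfd (if_gradSq_smoothAlong hG.met hp)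
      have c4 := if_smoothAlong_continuousOn hG.mfd hη
      exact ((c1.add (c2.pow 2)).sub (continuousOn_const.mul
        (Real.continuous_sqrt.comp_continuousOn c3))).mul (c4.pow 2)
    · show (Dsc (d + 1) M h t x + p x ^ 2 - 2 * gradN (d + 1) M h p x) * η x ^ 2 = 0
      rw [hηK x hx hxK]
      ring
  -- a.e. on the wall
  have haeW : ∀ᵐ x ∂P, x ∈ W := by
    rw [hPW]
    exact rm_ae_mem (ct_wvol_compl hGW)
  -- the pointwise inequality on `O`
  have hpt : ∀ x ∈ W, x ∈ O → 2 * (gradSq (d + 1) (M ∩ O) h η' x -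
      gradIp (d + 1) (M ∩ O) h η' φ x ^ 2 +
      (gradIp (d + 1) (M ∩ O) h φ (wmc (d + 1) (M ∩ O) h t φ) x -
        gradIp (d + 1) (M ∩ O) h φ p x) * η' x ^ 2) ≤ R x - L x := by
    intro x hxW hxO
    obtain ⟨hxN, hx0⟩ := hBdO x (hWBd hxW) hxO
    obtain ⟨Q, hQ, hQe⟩ := hnear x (hWBd hxW)
    have a1 := rm_level_gradSq hGN hφ.smooth hη'N hxN hx0 (hn x hxN hx0)
    have a2 := rm_level_Dsc hGN hφ.smooth hφ.reg hn hxN hx0
    have a3 := CtLAM.el hGN hpN hAN hφ hxN hx0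
    have a4 := gs_ip_cs hGN.mfd hGN.met hφ.smooth hpN hxN
    rw [hn x hxN hx0, one_mul] at a4
    have a5 : - gradIp (d + 1) (M ∩ O) h φ p x ≤ gradN (d + 1) M h p x := by
      unfold gradN
      rw [← if_gradSq_inter hG.mfd hG.met hO hp hxN]
      exact (neg_le_abs _).trans (Real.abs_le_sqrt a4)
    rw [hS] at a1 a2
    rw [if_gradSq_inter hGW.mfd hGW.met hO hη'W ⟨hxW, hxO⟩,
      gs_sq_congr_near hQ fun y hy => hQe y ⟨hWM hy.1, hy.2⟩] at a1
    rw [if_Dsc_inter hGW.mfd hGW.met hO hGW.drift ⟨hxW, hxO⟩,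
      if_Dsc_inter hG.mfd hG.met hO hG.drift hxN, a3] at a2
    have a6 : η' x = η x := hQe x ⟨hxN.1, mem_of_mem_nhds hQ⟩
    rw [← a1, a6]
    show _ ≤ 2 * gradSq d W h η x + Dsc d W h t x * η x ^ 2 -
      (Dsc (d + 1) M h t x + p x ^ 2 - 2 * gradN (d + 1) M h p x) * η x ^ 2
    nlinarith [sq_nonneg (η x)]
  -- integrate
  have iRL : Integrable (fun x => R x - L x) P := iR.sub iL
  have step1 : 0 ≤ ∫ x in O, (R x - L x) ∂P := by
    have i0 : Integrable (fun x => gradSq (d + 1) (M ∩ O) h η' x -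
      gradIp (d + 1) (M ∩ O) h η' φ x ^ 2 +
      (gradIp (d + 1) (M ∩ O) h φ (wmc (d + 1) (M ∩ O) h t φ) x -
        gradIp (d + 1) (M ∩ O) h φ p x) * η' x ^ 2) (P.restrict O) := by
      have hT' : rm_Test (d + 1) (M ∩ O) η' := ⟨hη'N, hc'⟩
      have D' : rm_VD (d + 1) (M ∩ O) h t φ := ⟨hGN, hφ.smooth, hφ.reg⟩
      have t1 := hT'.sq hGN.mfd hGN.met
      have t2 := ((hT'.ip_left hGN.mfd hGN.met hφ.smooth).mul_left
        (if_gradIp_smoothAlong hGN.met hη'N hφ.smooth)).smul (-1)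
      have t3 := (hT'.mul_left hη'N).mul_left (gs_sm_sub
        (if_gradIp_smoothAlong hGN.met hφ.smooth D'.wmc_sm)
        (if_gradIp_smoothAlong hGN.met hφ.smooth hpN))
      have t4 := ((t1.add t2).add t3).int_wper hGN hAN.lf
      rw [ct_wper_inter hG hA.lf.meas hO] at t4
      refine t4.congr (Filter.Eventually.of_forall fun x => ?_)
      show gradSq (d + 1) (M ∩ O) h η' x + -1 * (gradIp (d + 1) (M ∩ O) h η' φ x *
        gradIp (d + 1) (M ∩ O) h η' φ x) + (gradIp (d + 1) (M ∩ O) h φ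
          (wmc (d + 1) (M ∩ O) h t φ) x - gradIp (d + 1) (M ∩ O) h φ p x) * (η' x * η' x) = _
      ring
    have h2 : 0 ≤ ∫ x in O, 2 * (gradSq (d + 1) (M ∩ O) h η' x -
      gradIp (d + 1) (M ∩ O) h η' φ x ^ 2 +
      (gradIp (d + 1) (M ∩ O) h φ (wmc (d + 1) (M ∩ O) h t φ) x -
        gradIp (d + 1) (M ∩ O) h φ p x) * η' x ^ 2) ∂P := by
      rw [integral_const_mul]
      exact mul_nonneg (by norm_num) key
    refine h2.trans (integral_mono_ae (i0.const_mul 2) iRL.integrableOn ?_)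
    filter_upwards [ae_restrict_of_ae haeW, ae_restrict_mem hO.measurableSet] with x hxW hxO
    exact hpt x hxW hxO
  have step2 : ∫ x in O, (R x - L x) ∂P = ∫ x, (R x - L x) ∂P := by
    refine setIntegral_eq_integral_of_ae_compl_eq_zero ?_
    filter_upwards [haeW] with x hxW hxO
    have hxK : x ∉ K := hKW x hxW fun hx => hxO (hK₀O hx)
    show 2 * gradSq d W h η x + Dsc d W h t x * η x ^ 2 -
      (Dsc (d + 1) M h t x + p x ^ 2 - 2 * gradN (d + 1) M h p x) * η x ^ 2 = 0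
    rw [hηK x (hWM hxW) hxK]
    have : gradSq d W h η x = 0 := rm_ip_zero_left hGW.mfd hGW.met hηW hK.isClosed
      (fun y hy hyK => hηK y (hWM hy) hyK) hxW hxK
    rw [this]
    ring
  rw [step2, integral_sub iR iL] at step1
  linarith

end Claimed.Agent.R315
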