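import Claimed.Agent.R315.Pack008

/-!
# Row 315, package Rm: file `Long.lean` = LONG THIN lapse coordinates   (helper39)

`rm_orth_chart` gives lapse coordinates of some small radius.  Here: if the integral curve of
`N = ∇q/|∇q|²` through `u0` exists for `|a| ≤ ρ`, then there are lapse coordinates of radius
EXACTLY `ρ` (the `y` variables are rescaled), with image in any given neighbourhood of the curve.

* `rm_orth_long`  : chart level, hypothesis on the maximal flow;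
* `rm_curve_ball` : a priori bound: the curve exists and stays in a ball;
* `rm_orth_ball`  : chart level, hypothesis = bound of `N` on a closed ball;
* `rm_orth_param_long`, `rm_orth_param_ball` : manifold level.
-/

set_option autoImplicit false
open scoped ContDiff Topology
open Claims.C0499 Set Filter
open Claimed.Agent.R316.ODE

namespace Claimed.Agent.R315

variable {d : ℕ}

theorem rm_fl_differentiableAt {F : Type} [NormedAddCommGroup F] [NormedSpace ℝ F]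
    [CompleteSpace F] {f : F → F} {Ω : Set F} (hΩ : IsOpen Ω) (hf : ContDiffOn ℝ 1 f Ω) {s : ℝ}
    {y : F} (hy : (s, y) ∈ dom f Ω) : DifferentiableAt ℝ (fl f Ω s) y := by
  have h1 : ContDiffAt ℝ 1 (fun p : ℝ × F => fl f Ω p.1 p.2) (s, y) :=
    (contDiffOn_fl (n := 1) le_rfl hΩ hf).contDiffAt ((isOpen_dom hΩ hf).mem_nhds hy)
  have h2 : DifferentiableAt ℝ (fun p : ℝ × F => fl f Ω p.1 p.2) (s, y) :=
    h1.differentiableAt (by norm_num)
  have h3 : DifferentiableAt ℝ (fun y : F => (s, y)) y :=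
    (differentiableAt_const s).prodMk differentiableAt_id
  exact DifferentiableAt.comp y (g := fun p : ℝ × F => fl f Ω p.1 p.2) h2 h3

theorem rm_in_tl_of_zero {X : E (d + 1)} (hX : X 0 = 0) : rm_in d (rm_tl d X) = X := by
  have := rm_J_tl X
  rw [hX] at this
  unfold rm_J at this
  rwa [zero_smul, zero_add] at this

/-- **long thin lapse coordinates.** -/
theorem rm_orth_long {G : rm_MF (d + 1)} {U : Set (E (d + 1))} (h : rm_Met G U)
    {q : E (d + 1) → ℝ} (hq : ContDiffOn ℝ ∞ q U) {u0 : E (d + 1)} (hu0 : u0 ∈ U)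
    (hdq : 0 < gradSqC G q u0) {ρ : ℝ} (hρ : 0 < ρ)
    (hdom : ∀ a : ℝ, |a| ≤ ρ → (a, u0) ∈ dom (rm_N G q) (rm_reg G q U))
    {O : Set (E (d + 1))} (hO : IsOpen O)
    (hcur : ∀ a : ℝ, |a| ≤ ρ → fl (rm_N G q) (rm_reg G q U) a u0 ∈ O) :
    ∃ τ, rm_Lapse G U q u0 τ ρ ∧ ∀ w ∈ rm_box d (q u0) ρ, τ w ∈ O := by
  classical
  obtain ⟨τ₀, r₀, L₀⟩ := rm_orth_chart h hq hu0 hdq
  set Ω := rm_reg G q U with hΩdef
  set N := rm_N G q with hNdef
  have hΩ : IsOpen Ω := rm_reg_open h hq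
  have hN : ContDiffOn ℝ ∞ N Ω := rm_N_smooth h hq
  have hN1 : ContDiffOn ℝ 1 N Ω := hN.of_le (by simp)
  have hD : IsOpen (dom N Ω) := isOpen_dom hΩ hN1
  set Φ : ℝ × E (d + 1) → E (d + 1) := fun p => fl N Ω p.1 p.2 with hΦdef
  have hΦ : ContDiffOn ℝ ∞ Φ (dom N Ω) := contDiffOn_fl_infty hΩ hN
  set D' : Set (ℝ × E (d + 1)) := dom N Ω ∩ Φ ⁻¹' O with hD'def
  have hD' : IsOpen D' := hΦ.continuousOn.isOpen_inter_preimage hD hO
  have hsub : Set.Icc (-ρ) ρ ×ˢ ({u0} : Set (E (d + 1))) ⊆ D' := by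
    rintro ⟨a, y⟩ ⟨ha, hy⟩
    rw [Set.mem_singleton_iff] at hy
    subst hy
    exact ⟨hdom a (abs_le.2 ha), hcur a (abs_le.2 ha)⟩
  obtain ⟨A, B, -, hB, hIA, huB, hAB⟩ :=
    generalized_tube_lemma isCompact_Icc isCompact_singleton hD' hsub
  have hu0B : u0 ∈ B := huB rfl
  -- a small box which `τ₀` maps into `B`
  have hb0 : IsOpen (rm_box d (q u0) r₀) := rm_box_open _ _
  have hW : IsOpen (rm_box d (q u0) r₀ ∩ τ₀ ⁻¹' B) :=
    L₀.pull.smooth.continuousOn.isOpen_inter_preimage hb0 hB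
  have hcW : rm_J (q u0) (0 : E d) ∈ rm_box d (q u0) r₀ ∩ τ₀ ⁻¹' B := by
    refine ⟨⟨?_, ?_⟩, ?_⟩
    · rw [rm_J_zero, sub_self, abs_zero]; exact L₀.pos
    · rw [rm_tl_J, norm_zero]; exact L₀.pos
    · show τ₀ _ ∈ B
      rw [L₀.base]; exact hu0B
  obtain ⟨r₁, hr₁, hbox₁⟩ := rm_box_subset hW hcW
  set ε : ℝ := r₁ / ρ with hε
  have hε0 : 0 < ε := div_pos hr₁ hρ
  set κ : E (d + 1) → E (d + 1) := fun w => rm_J (q u0) (ε • rm_tl d w) with hκdef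
  have hκ : ContDiff ℝ ∞ κ :=
    (rm_J_contDiff (q u0)).comp ((rm_tl d).contDiff.const_smul ε)
  set Bx := rm_box d (q u0) ρ with hBx
  have hBxo : IsOpen Bx := rm_box_open _ _
  have hκm : ∀ w ∈ Bx, κ w ∈ rm_box d (q u0) r₀ ∩ τ₀ ⁻¹' B := by
    intro w hw
    refine hbox₁ ⟨?_, ?_⟩
    · rw [rm_J_zero, sub_self, abs_zero]; exact hr₁
    · rw [rm_tl_J, norm_smul, Real.norm_eq_abs, abs_of_pos hε0, hε, div_mul_eq_mul_div,
        div_lt_iff₀ hρ]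
      exact mul_lt_mul_of_pos_left hw.2 hr₁
  set σ : E (d + 1) → E (d + 1) := fun w => τ₀ (κ w) with hσdef
  have hσ : ContDiffOn ℝ ∞ σ Bx :=
    L₀.pull.smooth.comp hκ.contDiffOn fun w hw => (hκm w hw).1
  have hp0 : ContDiff ℝ ∞ (fun w : E (d + 1) => w 0) :=
    (EuclideanSpace.proj (0 : Fin (d + 1)) : E (d + 1) →L[ℝ] ℝ).contDiff
  set θ : E (d + 1) → ℝ × E (d + 1) := fun w => (w 0 - q u0, σ w) with hθdef
  have hθs : ContDiffOn ℝ ∞ θ Bx := (hp0.contDiffOn.sub contDiffOn_const).prodMk hσ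
  have hθm : ∀ w ∈ Bx, θ w ∈ D' := by
    intro w hw
    exact hAB ⟨hIA (abs_le.1 hw.1.le), (hκm w hw).2⟩
  set τ : E (d + 1) → E (d + 1) := fun w => fl N Ω (θ w).1 (θ w).2 with hτdef
  have hτ : ContDiffOn ℝ ∞ τ Bx := hΦ.comp hθs fun w hw => (hθm w hw).1
  have hτd : ∀ w ∈ Bx, DifferentiableAt ℝ τ w := fun w hw =>
    (hτ.contDiffAt (hBxo.mem_nhds hw)).differentiableAt (by simp)
  have hτΩ : ∀ w ∈ Bx, τ w ∈ Ω := fun w hw => fl_mem (hθm w hw).1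
  have hqσ : ∀ w ∈ Bx, q (σ w) = q u0 := by
    intro w hw
    show q (τ₀ (κ w)) = _
    rw [L₀.lvl _ (hκm w hw).1, rm_J_zero]
  have hlvl : ∀ w ∈ Bx, q (τ w) = w 0 := by
    intro w hw
    have := rm_q_fl h hq (hθm w hw).1
    show q (fl N Ω (θ w).1 (θ w).2) = _
    rw [this]
    show q (σ w) + (w 0 - q u0) = _
    rw [hqσ w hw]; ring
  have hdq' : ∀ w ∈ Bx, ∀ Z : E (d + 1), fderiv ℝ q (τ w) (fderiv ℝ τ w Z) = Z 0 := by
    intro w hw Z
    have e1 : (q ∘ τ) =ᶠ[𝓝 w] fun w : E (d + 1) => w 0 :=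
      Filter.eventuallyEq_of_mem (hBxo.mem_nhds hw) hlvl
    have e2 := e1.fderiv_eq (𝕜 := ℝ)
    rw [fderiv_comp w (rm_da h.opn hq (hτΩ w hw).1) (hτd w hw)] at e2
    have e3 : fderiv ℝ (fun w : E (d + 1) => w 0) w =
        (EuclideanSpace.proj (0 : Fin (d + 1)) : E (d + 1) →L[ℝ] ℝ) :=
      (EuclideanSpace.proj (0 : Fin (d + 1)) : E (d + 1) →L[ℝ] ℝ).fderiv
    rw [e3] at e2
    have := congrArg (fun A : E (d + 1) →L[ℝ] ℝ => A Z) e2
    simpa using this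
  have hD0 : ∀ w ∈ Bx, fderiv ℝ τ w (eb 0) = N (τ w) := by
    intro w hw
    have hl : HasDerivAt (fun r : ℝ => w + r • (eb 0 : E (d + 1))) (eb 0) 0 := by
      simpa using ((hasDerivAt_id (0 : ℝ)).smul_const (eb 0 : E (d + 1))).const_add w
    have hτw : HasFDerivAt τ (fderiv ℝ τ w) (w + (0 : ℝ) • (eb 0 : E (d + 1))) := by
      rw [zero_smul, add_zero]; exact (hτd w hw).hasFDerivAt
    have hline : HasDerivAt (fun r : ℝ => τ (w + r • (eb 0 : E (d + 1))))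
        (fderiv ℝ τ w (eb 0)) 0 :=
      HasFDerivAt.comp_hasDerivAt (f := fun r : ℝ => w + r • (eb 0 : E (d + 1))) 0 hτw hl
    have e : (fun r : ℝ => τ (w + r • (eb 0 : E (d + 1)))) =
        fun r => fl N Ω ((θ w).1 + r) (θ w).2 := by
      funext r
      have s1 : σ (w + r • (eb 0 : E (d + 1))) = σ w := by
        simp only [hσdef, hκdef, map_add, map_smul, rm_tl_eb0, smul_zero, add_zero]
      show fl N Ω (θ (w + r • (eb 0 : E (d + 1)))).1 (θ (w + r • (eb 0 : E (d + 1)))).2 = _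
      simp only [hθdef, s1]
      congr 1
      simp
      ring
    have h1 : HasDerivAt (fun r => fl N Ω r (θ w).2) (N (fl N Ω ((θ w).1 + 0) (θ w).2))
        ((θ w).1 + 0) := by
      rw [add_zero]; exact rm_hasDerivAt_fl hΩ hN1 (hθm w hw).1
    have hline2 : HasDerivAt (fun r => fl N Ω ((θ w).1 + r) (θ w).2)
        (N (fl N Ω ((θ w).1 + 0) (θ w).2)) 0 := h1.comp_const_add (θ w).1 0
    rw [add_zero, ← e] at hline2
    exact hline.unique hline2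
  -- immersion
  have himm : ∀ w ∈ Bx, Function.Injective (fderiv ℝ τ w) := by
    intro w hw
    rw [injective_iff_map_eq_zero]
    intro X hX
    have hX0 : X 0 = 0 := by
      have := hdq' w hw X
      rw [hX, map_zero] at this
      exact this.symm
    have hXX := rm_in_tl_of_zero hX0
    set s : ℝ := w 0 - q u0 with hs
    set ι : E (d + 1) → E (d + 1) := fun v => rm_J (w 0) (rm_tl d v) with hιdef
    have hι : HasFDerivAt ι ((rm_in d).comp (rm_tl d)) w :=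
      (rm_J_hasFDerivAt (w 0) (rm_tl d w)).comp w (rm_tl d).hasFDerivAt
    have hιw : ι w = w := rm_J_tl w
    have c1 : HasFDerivAt (τ ∘ ι) ((fderiv ℝ τ w).comp ((rm_in d).comp (rm_tl d))) w := by
      have : HasFDerivAt τ (fderiv ℝ τ w) (ι w) := by rw [hιw]; exact (hτd w hw).hasFDerivAt
      exact this.comp w hι
    have e : τ ∘ ι = fl N Ω s ∘ σ := by
      funext v
      show fl N Ω (θ (ι v)).1 (θ (ι v)).2 = fl N Ω s (σ v)
      have s1 : σ (ι v) = σ v := by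
        simp only [hσdef, hκdef, hιdef, rm_tl_J]
      have s2 : (ι v) 0 = w 0 := rm_J_zero _ _
      show fl N Ω ((ι v) 0 - q u0) (σ (ι v)) = fl N Ω s (σ v)
      rw [s1, s2]
    have hσd : HasFDerivAt σ ((fderiv ℝ τ₀ (κ w)).comp (ε • (rm_in d).comp (rm_tl d))) w := by
      have k1 : HasFDerivAt κ (ε • (rm_in d).comp (rm_tl d)) w := by
        have k2 : HasFDerivAt (fun v : E (d + 1) => ε • rm_tl d v) (ε • (rm_tl d)) w :=
          (rm_tl d).hasFDerivAt.const_smul ε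
        have k3 := (rm_J_hasFDerivAt (q u0) (ε • rm_tl d w)).comp w k2
        have k4 : (rm_in d).comp (ε • rm_tl d) = ε • (rm_in d).comp (rm_tl d) := by
          ext v; simp
        rw [k4] at k3
        exact k3
      exact ((L₀.pull.contDiffAt (hκm w hw).1).differentiableAt (by simp)).hasFDerivAt.comp w k1
    have c2 : HasFDerivAt (fl N Ω s ∘ σ) ((fderiv ℝ (fl N Ω s) (σ w)).comp
        ((fderiv ℝ τ₀ (κ w)).comp (ε • (rm_in d).comp (rm_tl d)))) w :=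
      (rm_fl_differentiableAt hΩ hN1 (hθm w hw).1).hasFDerivAt.comp w hσd
    rw [e] at c1
    have c3 := congrArg (fun A : E (d + 1) →L[ℝ] E (d + 1) => A X) (c1.unique c2)
    simp only [ContinuousLinearMap.comp_apply, smul_apply, hXX, hX] at c3
    have c4 := congrArg (fun A : E (d + 1) →L[ℝ] E (d + 1) =>
      A (fderiv ℝ τ₀ (κ w) (ε • X))) (fderiv_fl_comp hΩ hN1 (hθm w hw).1)
    simp only [ContinuousLinearMap.comp_apply, ContinuousLinearMap.id_apply] at c4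
    have c5 : fderiv ℝ τ₀ (κ w) (ε • X) = 0 := by
      rw [← c4]
      show fderiv ℝ (fl N Ω (-s)) (fl N Ω s (σ w)) (fderiv ℝ (fl N Ω s) (σ w) _) = 0
      rw [← c3, map_zero]
    have c6 : ε • X = 0 := L₀.pull.inj _ (hκm w hw).1 (by rw [c5, map_zero])
    exact (smul_eq_zero.1 c6).resolve_left hε0.ne'
  -- injectivity
  have hinj : Set.InjOn τ Bx := by
    intro w hw w' hw' hww
    have h0 : w 0 = w' 0 := by rw [← hlvl w hw, ← hlvl w' hw', hww]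
    have e1 : fl N Ω (-(θ w).1) (fl N Ω (θ w).1 (θ w).2) = (θ w).2 :=
      (fl_neg hΩ hN1 (hθm w hw).1).2
    have e2 : fl N Ω (-(θ w').1) (fl N Ω (θ w').1 (θ w').2) = (θ w').2 :=
      (fl_neg hΩ hN1 (hθm w' hw').1).2
    have e3 : σ w = σ w' := by
      have a1 : fl N Ω (θ w).1 (θ w).2 = fl N Ω (θ w').1 (θ w').2 := hww
      have a2 : (θ w).1 = (θ w').1 := by simp only [hθdef, h0]
      rw [a1, a2, e2] at e1
      exact e1.symm
    have e4 : κ w = κ w' := L₀.inj (hκm w hw).1 (hκm w' hw').1 e3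
    have e5 : ε • rm_tl d w = ε • rm_tl d w' := by
      have := congrArg (rm_tl d) e4
      simpa only [hκdef, rm_tl_J] using this
    have e6 : rm_tl d w = rm_tl d w' := smul_right_injective _ hε0.ne' e5
    rw [← rm_J_tl w, ← rm_J_tl w', h0, e6]
  have hbase : τ (rm_J (q u0) 0) = u0 := by
    show fl N Ω (θ (rm_J (q u0) 0)).1 (θ (rm_J (q u0) 0)).2 = u0
    have a1 : θ (rm_J (q u0) 0) = (0, u0) := by
      simp only [hθdef, hσdef, hκdef, rm_J_zero, sub_self, rm_tl_J, smul_zero, L₀.base]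
    rw [a1]
    exact fl_zero
  refine ⟨τ, ⟨hρ, rm_pullC h hBxo hτ (fun w hw => (hτΩ w hw).1) himm, hinj, hbase, hlvl, ?_⟩,
    fun w hw => (hθm w hw).2⟩
  intro w hw a
  show if_bil (G (τ w)) (fderiv ℝ τ w (eb 0)) (fderiv ℝ τ w (eb a.succ)) = 0
  rw [hD0 w hw, rm_G_N h (hτΩ w hw), hdq' w hw]
  simp [Fin.succ_ne_zero]

/-- a priori bound: if `‖f‖ ≤ Λ` on `closedBall x R ⊆ Ω` and `ρ Λ < R`, the integral curve through
`x` exists for `|a| ≤ ρ` and stays in `closedBall x (|a| Λ) ⊆ ball x R`. -/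
theorem rm_curve_ball {n : ℕ} {f : E n → E n} {Ω : Set (E n)} (hΩ : IsOpen Ω)
    (hf : ContDiffOn ℝ 1 f Ω) {x : E n} {R Λ ρ : ℝ} (hR : 0 < R)
    (hball : Metric.closedBall x R ⊆ Ω) (hΛ : ∀ y ∈ Metric.closedBall x R, ‖f y‖ ≤ Λ)
    (hρΛ : ρ * Λ < R) {a : ℝ} (ha : |a| ≤ ρ) :
    (a, x) ∈ dom f Ω ∧ fl f Ω a x ∈ Metric.closedBall x (|a| * Λ) ∧
      fl f Ω a x ∈ Metric.ball x R := by
  have hΛ0 : 0 ≤ Λ := (norm_nonneg _).trans (hΛ x (Metric.mem_closedBall_self hR.le))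
  set Ω' : Set (E n) := Ω ∩ Metric.ball x R with hΩ'def
  have hΩ' : IsOpen Ω' := hΩ.inter Metric.isOpen_ball
  have hf' : ContDiffOn ℝ 1 f Ω' := hf.mono Set.inter_subset_left
  have hxΩ' : x ∈ Ω' := ⟨hball (Metric.mem_closedBall_self hR.le), Metric.mem_ball_self hR⟩
  have claim : ∀ r : ℝ, (r, x) ∈ dom f Ω' → fl f Ω' r x ∈ Metric.closedBall x (|r| * Λ) := by
    intro r hd
    have h1 : ∀ s ∈ Set.uIcc 0 r, HasDerivWithinAt (fun s => fl f Ω' s x) (f (fl f Ω' s x))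
        (Set.uIcc 0 r) s := fun s hs =>
      (rm_hasDerivAt_fl hΩ' hf' (mem_dom_of_mem_uIcc hd hs)).hasDerivWithinAt
    have h2 : ∀ s ∈ Set.uIcc 0 r, ‖f (fl f Ω' s x)‖ ≤ Λ := fun s hs =>
      hΛ _ (Metric.ball_subset_closedBall (fl_mem (mem_dom_of_mem_uIcc hd hs)).2)
    have h3 := Convex.norm_image_sub_le_of_norm_hasDerivWithin_le h1 h2 (convex_uIcc 0 r)
      Set.left_mem_uIcc Set.right_mem_uIcc
    rw [fl_zero, sub_zero, Real.norm_eq_abs] at h3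
    rw [Metric.mem_closedBall, dist_eq_norm, mul_comm]
    exact h3
  have hK : IsCompact (Metric.closedBall x (ρ * Λ)) := isCompact_closedBall x _
  have hKΩ' : Metric.closedBall x (ρ * Λ) ⊆ Ω' := fun y hy =>
    ⟨hball (Metric.closedBall_subset_closedBall hρΛ.le hy),
      Metric.closedBall_subset_ball hρΛ hy⟩
  have hd : (a, x) ∈ dom f Ω' := by
    refine mem_dom_of_apriori hΩ' hf' hxΩ' hK hKΩ' fun r hr hrd => ?_
    have hra : |r| ≤ |a| := by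
      rcases Set.mem_uIcc.1 hr with ⟨h1, h2⟩ | ⟨h1, h2⟩
      · rw [abs_of_nonneg h1, abs_of_nonneg (h1.trans h2)]; exact h2
      · rw [abs_of_nonpos h2, abs_of_nonpos (h1.trans h2)]; linarith
    exact Metric.closedBall_subset_closedBall
      (mul_le_mul_of_nonneg_right (hra.trans ha) hΛ0) (claim r hrd)
  obtain ⟨h1, h2⟩ := fl_eq_of_subset hΩ hf Set.inter_subset_left (fun _ _ => rfl) hd
  refine ⟨h1, ?_, ?_⟩
  · rw [h2]; exact claim a hd
  · rw [h2]; exact (fl_mem hd).2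

/-- **long thin lapse coordinates**, hypothesis = bound of `N` on a closed ball. -/
theorem rm_orth_ball {G : rm_MF (d + 1)} {U : Set (E (d + 1))} (h : rm_Met G U)
    {q : E (d + 1) → ℝ} (hq : ContDiffOn ℝ ∞ q U) {u0 : E (d + 1)} {R Λ ρ : ℝ} (hR : 0 < R)
    (hball : Metric.closedBall u0 R ⊆ U) (hreg : ∀ u ∈ Metric.closedBall u0 R, 0 < gradSqC G q u)
    (hΛ : ∀ u ∈ Metric.closedBall u0 R, ‖rm_N G q u‖ ≤ Λ) (hρ : 0 < ρ) (hρΛ : ρ * Λ < R) :
    ∃ τ, rm_Lapse G U q u0 τ ρ ∧ ∀ w ∈ rm_box d (q u0) ρ, τ w ∈ Metric.ball u0 R := by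
  have hΩ : IsOpen (rm_reg G q U) := rm_reg_open h hq
  have hN1 : ContDiffOn ℝ 1 (rm_N G q) (rm_reg G q U) := (rm_N_smooth h hq).of_le (by simp)
  have hb : Metric.closedBall u0 R ⊆ rm_reg G q U := fun u hu => ⟨hball hu, hreg u hu⟩
  have h0 := Metric.mem_closedBall_self (x := u0) hR.le
  exact rm_orth_long h hq (hball h0) (hreg u0 h0) hρ
    (fun a ha => (rm_curve_ball hΩ hN1 hR hb hΛ hρΛ ha).1) Metric.isOpen_ball
    (fun a ha => (rm_curve_ball hΩ hN1 hR hb hΛ hρΛ ha).2.2)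

section mfd

variable {V : Type} [NormedAddCommGroup V] [NormedSpace ℝ V] [FiniteDimensional ℝ V]
variable {M : Set V} {g : Ten V} {q : V → ℝ}

/-- a lapse chart inside a parametrisation gives a lapse parametrisation. -/
theorem rm_Lapse.param {ψ₀ : E (d + 1) → V} {U₀ : Set (E (d + 1))} (h₀ : IsParam M ψ₀ U₀)
    {u0 : E (d + 1)} {τ : E (d + 1) → E (d + 1)} {r : ℝ}
    (hL : rm_Lapse (cm g ψ₀) U₀ (q ∘ ψ₀) u0 τ r) : rm_LapseP M g q (ψ₀ u0) (ψ₀ ∘ τ) r := by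
  have hbox : IsOpen (rm_box d ((q ∘ ψ₀) u0) r) := rm_box_open _ _
  refine ⟨hL.pos, if_comp h₀ hbox hL.pull.smooth hL.inj hL.pull.inj hL.pull.mapsTo,
    ?_, fun w hw => hL.lvl w hw, fun w hw a => ?_⟩
  · show ψ₀ (τ (rm_J ((q ∘ ψ₀) u0) 0)) = ψ₀ u0
    rw [hL.base]
  · rw [rm_cm_comp g (if_differentiableAt h₀ (hL.pull.mapsTo hw))
      ((hL.pull.contDiffAt hw).differentiableAt (by simp))]
    exact hL.orth w hw a

/-- manifold version of `rm_orth_long`. -/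
theorem rm_orth_param_long (hg : IsMetricOn (d + 1) M g) (hq : SmoothAlong (d + 1) M q)
    {ψ₀ : E (d + 1) → V} {U₀ : Set (E (d + 1))} (h₀ : IsParam M ψ₀ U₀) {u0 : E (d + 1)}
    (hu0 : u0 ∈ U₀) (hdq : 0 < gradSqC (cm g ψ₀) (q ∘ ψ₀) u0) {ρ : ℝ} (hρ : 0 < ρ)
    (hdom : ∀ a : ℝ, |a| ≤ ρ →
      (a, u0) ∈ dom (rm_N (cm g ψ₀) (q ∘ ψ₀)) (rm_reg (cm g ψ₀) (q ∘ ψ₀) U₀))
    {O : Set (E (d + 1))} (hO : IsOpen O)
    (hcur : ∀ a : ℝ, |a| ≤ ρ →
      fl (rm_N (cm g ψ₀) (q ∘ ψ₀)) (rm_reg (cm g ψ₀) (q ∘ ψ₀) U₀) a u0 ∈ O) :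
    ∃ τ : E (d + 1) → E (d + 1), rm_LapseP M g q (ψ₀ u0) (ψ₀ ∘ τ) ρ ∧
      ∀ w ∈ rm_box d (q (ψ₀ u0)) ρ, τ w ∈ O ∩ U₀ := by
  obtain ⟨τ, hL, hτ⟩ := rm_orth_long (if_metC hg h₀).toRm (hq ψ₀ U₀ h₀) hu0 hdq hρ hdom hO hcur
  exact ⟨τ, hL.param h₀, fun w hw => ⟨hτ w hw, hL.pull.mapsTo hw⟩⟩

/-- manifold version of `rm_orth_ball`. -/
theorem rm_orth_param_ball (hg : IsMetricOn (d + 1) M g) (hq : SmoothAlong (d + 1) M q)
    {ψ₀ : E (d + 1) → V} {U₀ : Set (E (d + 1))} (h₀ : IsParam M ψ₀ U₀) {u0 : E (d + 1)}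
    {R Λ ρ : ℝ} (hR : 0 < R) (hball : Metric.closedBall u0 R ⊆ U₀)
    (hreg : ∀ u ∈ Metric.closedBall u0 R, 0 < gradSqC (cm g ψ₀) (q ∘ ψ₀) u)
    (hΛ : ∀ u ∈ Metric.closedBall u0 R, ‖rm_N (cm g ψ₀) (q ∘ ψ₀) u‖ ≤ Λ) (hρ : 0 < ρ)
    (hρΛ : ρ * Λ < R) :
    ∃ τ : E (d + 1) → E (d + 1), rm_LapseP M g q (ψ₀ u0) (ψ₀ ∘ τ) ρ ∧
      ∀ w ∈ rm_box d (q (ψ₀ u0)) ρ, τ w ∈ Metric.ball u0 R := by
  obtain ⟨τ, hL, hτ⟩ := rm_orth_ball (if_metC hg h₀).toRm (hq ψ₀ U₀ h₀) hR hball hreg hΛ hρ hρΛ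
  exact ⟨τ, hL.param h₀, hτ⟩

end mfd

end Claimed.Agent.R315
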