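import Claimed.Agent.R315.Ct.Reg
import Claimed.Agent.R315.Rm.Glob

/-!
# Row 315, SC-RIEM, stability of the wall (P Lemma B.8), part A: infrastructure (prefix `rm_`)

* cutoffs on a Core manifold (`rm_exists_compact_nhd`, `rm_exists_cutoff`, `rm_exists_bump`);
* test functions `rm_Test d M u` (smooth along `M`, vanishing on `M` outside a compact subset of `M`): algebra, bounds,
  locality of `gradIp`, `wlap`, `wdiv`;
* integrability w.r.t. `wvol` and `wper`.
Owner: helper39.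
-/

set_option autoImplicit false
set_option linter.unusedSectionVars false
set_option linter.unusedVariables false
open scoped ContDiff Topology ENNReal Manifold
open MeasureTheory Claims.C0499 Set

namespace Claimed.Agent.R315

variable {V : Type} [NormedAddCommGroup V] [NormedSpace ℝ V] [FiniteDimensional ℝ V]
variable {d : ℕ} {M : Set V} {h : Ten V} {t : V → ℝ}

/-! ## cutoffs -/

/-- local compactness of `M`. -/
theorem rm_exists_compact_nhd (hM : IsMfd d M) {K : Set V} (hK : IsCompact K) (hKM : K ⊆ M) :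
    ∃ (K' O : Set V), IsCompact K' ∧ K' ⊆ M ∧ IsOpen O ∧ K ⊆ O ∧ M ∩ O ⊆ K' := by
  have key : ∀ x ∈ K, ∃ (C O : Set V), IsCompact C ∧ C ⊆ M ∧ IsOpen O ∧ x ∈ O ∧ M ∩ O ⊆ C := by
    intro x hx
    obtain ⟨ψ, U, hp, u, hu, rfl⟩ := hM x (hKM hx)
    obtain ⟨r, hr, hb⟩ := Metric.nhds_basis_closedBall.mem_iff.1 ((if_open hp).mem_nhds hu)
    have hbb : Metric.ball u r ⊆ U := Metric.ball_subset_closedBall.trans hb
    obtain ⟨O, hO, hOe⟩ := if_image_open hp Metric.isOpen_ball hbb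
    refine ⟨ψ '' Metric.closedBall u r,  O,
      (isCompact_closedBall u r).image_of_continuousOn ((if_continuousOn hp).mono hb), ?_, hO, ?_, ?_⟩
    · rintro _ ⟨w, hw, rfl⟩
      exact if_mem hp (hb hw)
    · have : ψ u ∈ M ∩ O := hOe ▸ mem_image_of_mem ψ (Metric.mem_ball_self hr)
      exact this.2
    · rw [← hOe]
      exact image_mono Metric.ball_subset_closedBall
  choose! C O hC hCM hO hxO hMO using key
  obtain ⟨T, hT, hcov⟩ := hK.elim_nhds_subcover O fun x hx => (hO x hx).mem_nhds (hxO x hx)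
  refine ⟨⋃ x ∈ T, C x, ⋃ x ∈ T, O x, T.isCompact_biUnion fun x hx => hC x (hT x hx),
    iUnion₂_subset fun x hx => hCM x (hT x hx), isOpen_biUnion fun x hx => hO x (hT x hx), hcov, ?_⟩
  rintro y ⟨hyM, hy⟩
  obtain ⟨x, hx, hyx⟩ := mem_iUnion₂.1 hy
  exact mem_iUnion₂.2 ⟨x, hx, hMO x (hT x hx) ⟨hyM, hyx⟩⟩

/-- ambient bump function: `1` near the compact set `K`, `0` off the open set `O`. -/
theorem rm_exists_bump {K O : Set V} (hK : IsCompact K) (hO : IsOpen O) (hKO : K ⊆ O) :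
    ∃ (χ : V → ℝ) (O' : Set V), ContDiff ℝ ∞ χ ∧ (∀ x, 0 ≤ χ x ∧ χ x ≤ 1) ∧ IsOpen O' ∧ K ⊆ O' ∧
      (∀ x ∈ O', χ x = 1) ∧ ∀ x, x ∉ O → χ x = 0 := by
  obtain ⟨f, h1, h0, hf⟩ := exists_contMDiffMap_one_nhds_of_subset_interior (n := ⊤) 𝓘(ℝ, V)
    hK.isClosed (t := O) (by rwa [hO.interior_eq])
  obtain ⟨O', hO', hKO', hO'1⟩ := mem_nhdsSet_iff_exists.1 h1
  exact ⟨f, O', f.contMDiff.contDiff, fun x => hf x, hO', hKO', fun x hx => hO'1 hx, h0⟩

/-! ## test functions -/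

/-- test functions: smooth along `M`, vanishing on `M` outside a compact subset of `M`. -/
structure rm_Test (d : ℕ) (M : Set V) (u : V → ℝ) : Prop where
  sm : SmoothAlong d M u
  cs : CtCS M u

variable {u v f k : V → ℝ}

theorem rm_cs_mul_left (hu : CtCS M u) (f : V → ℝ) : CtCS M (fun x => f x * u x) := by
  obtain ⟨K, hK, hKM, h0⟩ := hu
  exact ⟨K, hK, hKM, fun x hx hxK => by show f x * u x = 0; rw [h0 x hx hxK, mul_zero]⟩

theorem rm_cs_mul_right (hu : CtCS M u) (f : V → ℝ) : CtCS M (fun x => u x * f x) := by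
  obtain ⟨K, hK, hKM, h0⟩ := hu
  exact ⟨K, hK, hKM, fun x hx hxK => by show u x * f x = 0; rw [h0 x hx hxK, zero_mul]⟩

theorem rm_cs_add (hu : CtCS M u) (hv : CtCS M v) : CtCS M (fun x => u x + v x) := by
  obtain ⟨K, hK, hKM, h0⟩ := hu
  obtain ⟨K', hK', hKM', h0'⟩ := hv
  exact ⟨K ∪ K', hK.union hK', union_subset hKM hKM', fun x hx hxK => by
    show u x + v x = 0
    rw [h0 x hx fun hh => hxK (Or.inl hh), h0' x hx fun hh => hxK (Or.inr hh), add_zero]⟩

theorem rm_cs_congr (hu : CtCS M u) (he : ∀ x ∈ M, v x = u x) : CtCS M v := by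
  obtain ⟨K, hK, hKM, h0⟩ := hu
  exact ⟨K, hK, hKM, fun x hx hxK => by rw [he x hx, h0 x hx hxK]⟩

theorem rm_Test.mul_left (hu : rm_Test d M u) (hf : SmoothAlong d M f) :
    rm_Test d M (fun x => f x * u x) := ⟨gs_sm_mul hf hu.sm, rm_cs_mul_left hu.cs f⟩

theorem rm_Test.mul_right (hu : rm_Test d M u) (hf : SmoothAlong d M f) :
    rm_Test d M (fun x => u x * f x) := ⟨gs_sm_mul hu.sm hf, rm_cs_mul_right hu.cs f⟩

theorem rm_Test.div (hu : rm_Test d M u) (hf : SmoothAlong d M f) (h0 : ∀ x ∈ M, f x ≠ 0) :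
    rm_Test d M (fun x => u x / f x) :=
  ⟨gs_sm_div hu.sm hf h0, by simpa only [div_eq_mul_inv] using rm_cs_mul_right hu.cs fun x => (f x)⁻¹⟩

theorem rm_Test.add (hu : rm_Test d M u) (hv : rm_Test d M v) :
    rm_Test d M (fun x => u x + v x) := ⟨gs_sm_add hu.sm hv.sm, rm_cs_add hu.cs hv.cs⟩

theorem rm_Test.smul (c : ℝ) (hu : rm_Test d M u) : rm_Test d M (fun x => c * u x) :=
  hu.mul_left (gs_sm_const c)

theorem rm_Test.congr (hu : rm_Test d M u) (he : ∀ x ∈ M, v x = u x) : rm_Test d M v :=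
  ⟨gs_sm_congr hu.sm he, rm_cs_congr hu.cs he⟩

/-- cutoff functions on `M`. -/
theorem rm_exists_cutoff (hM : IsMfd d M) {K : Set V} (hK : IsCompact K) (hKM : K ⊆ M) :
    ∃ (χ : V → ℝ) (O : Set V), rm_Test d M χ ∧ (∀ x, 0 ≤ χ x ∧ χ x ≤ 1) ∧ IsOpen O ∧ K ⊆ O ∧
      ∀ x ∈ O, χ x = 1 := by
  obtain ⟨K', O, hK', hK'M, hO, hKO, hMO⟩ := rm_exists_compact_nhd hM hK hKM
  obtain ⟨χ, O', hχ, h01, hO', hKO', h1, h0⟩ := rm_exists_bump hK hO hKO
  exact ⟨χ, O', ⟨if_smoothAlong_of_contDiff hχ, K', hK', hK'M, fun x hx hxK =>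
    h0 x fun hxO => hxK (hMO ⟨hx, hxO⟩)⟩, h01, hO', hKO', h1⟩

/-! ## bounds -/

theorem rm_cc_bdd {F : V → ℝ} (hF : ContinuousOn F M) (hc : CtCS M F) :
    ∃ C : ℝ, 0 ≤ C ∧ ∀ x ∈ M, |F x| ≤ C := by
  obtain ⟨K, hK, hKM, h0⟩ := hc
  obtain ⟨C, hC⟩ := hK.exists_bound_of_continuousOn (hF.mono hKM)
  refine ⟨max C 0, le_max_right _ _, fun x hx => ?_⟩
  by_cases hxK : x ∈ K
  · exact (hC x hxK).trans (le_max_left _ _)
  · rw [h0 x hx hxK, abs_zero]
    exact le_max_right _ _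

theorem rm_Test.bdd (hM : IsMfd d M) (hu : rm_Test d M u) : ∃ C : ℝ, 0 ≤ C ∧ ∀ x ∈ M, |u x| ≤ C :=
  rm_cc_bdd (if_smoothAlong_continuousOn hM hu.sm) hu.cs

/-- a positive continuous function is bounded below on compact sets. -/
theorem rm_pos_lower {F : V → ℝ} (hF : ContinuousOn F M) (hpos : ∀ x ∈ M, 0 < F x) {K : Set V}
    (hK : IsCompact K) (hKM : K ⊆ M) : ∃ c : ℝ, 0 < c ∧ ∀ x ∈ K, c ≤ F x := by
  rcases K.eq_empty_or_nonempty with rfl | hne
  · exact ⟨1, one_pos, fun x hx => hx.elim⟩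
  · obtain ⟨x₀, hx₀, hmin⟩ := hK.exists_isMinOn hne (hF.mono hKM)
    exact ⟨F x₀, hpos x₀ (hKM hx₀), fun x hx => hmin hx⟩

/-! ## locality -/

theorem rm_ip_zero_left (hM : IsMfd d M) (hh : IsMetricOn d M h) (hf : SmoothAlong d M f)
    {K : Set V} (hK : IsClosed K) (h0 : ∀ x ∈ M, x ∉ K → u x = 0) {x : V} (hx : x ∈ M)
    (hxK : x ∉ K) : gradIp d M h u f x = 0 := by
  rw [gs_ip_congr_near (f' := fun _ => (0 : ℝ)) (k' := f) (hK.isOpen_compl.mem_nhds hxK)
    (fun y hy => h0 y hy.1 hy.2) fun _ _ => rfl]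
  exact gs_ip_const_left hM hh 0 hf hx

theorem rm_ip_zero_right (hM : IsMfd d M) (hh : IsMetricOn d M h) (hf : SmoothAlong d M f)
    {K : Set V} (hK : IsClosed K) (h0 : ∀ x ∈ M, x ∉ K → u x = 0) {x : V} (hx : x ∈ M)
    (hxK : x ∉ K) : gradIp d M h f u x = 0 := by
  rw [gs_ip_congr_near (f' := f) (k' := fun _ => (0 : ℝ)) (hK.isOpen_compl.mem_nhds hxK)
    (fun _ _ => rfl) fun y hy => h0 y hy.1 hy.2]
  exact gs_ip_const_right hM hh 0 hf hx

theorem rm_Test.ip_left (hM : IsMfd d M) (hh : IsMetricOn d M h) (hu : rm_Test d M u)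
    (hf : SmoothAlong d M f) : rm_Test d M (gradIp d M h u f) := by
  obtain ⟨K, hK, hKM, h0⟩ := hu.cs
  exact ⟨if_gradIp_smoothAlong hh hu.sm hf, K, hK, hKM, fun x hx hxK =>
    rm_ip_zero_left hM hh hf hK.isClosed h0 hx hxK⟩

theorem rm_Test.ip_right (hM : IsMfd d M) (hh : IsMetricOn d M h) (hu : rm_Test d M u)
    (hf : SmoothAlong d M f) : rm_Test d M (gradIp d M h f u) := by
  obtain ⟨K, hK, hKM, h0⟩ := hu.cs
  exact ⟨if_gradIp_smoothAlong hh hf hu.sm, K, hK, hKM, fun x hx hxK =>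
    rm_ip_zero_right hM hh hf hK.isClosed h0 hx hxK⟩

theorem rm_Test.sq (hM : IsMfd d M) (hh : IsMetricOn d M h) (hu : rm_Test d M u) :
    rm_Test d M (gradSq d M h u) := hu.ip_left hM hh hu.sm

/-- `gradIp` of a function which is constant near `x`. -/
theorem rm_ip_one_left (hM : IsMfd d M) (hh : IsMetricOn d M h) (hf : SmoothAlong d M f)
    {O : Set V} (hO : IsOpen O) {c : ℝ} (h1 : ∀ x ∈ O, u x = c) {x : V} (hx : x ∈ M) (hxO : x ∈ O) :
    gradIp d M h u f x = 0 := by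
  rw [gs_ip_congr_near (f' := fun _ => c) (k' := f) (hO.mem_nhds hxO)
    (fun y hy => h1 y hy.2) fun _ _ => rfl]
  exact gs_ip_const_left hM hh c hf hx

/-! ## the weighted divergence -/

theorem rm_wdiv_sm (hh : IsMetricOn d M h) (ht : SmoothAlong d M t) (hu : SmoothAlong d M u)
    (hf : SmoothAlong d M f) : SmoothAlong d M (wdiv d M h t u f) :=
  gs_sm_add (gs_sm_mul hu (gs_wlap_sm hh ht hf)) (if_gradIp_smoothAlong hh hu hf)

theorem rm_Test.wdiv (hM : IsMfd d M) (hh : IsMetricOn d M h) (ht : SmoothAlong d M t)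
    (hu : rm_Test d M u) (hf : SmoothAlong d M f) : rm_Test d M (wdiv d M h t u f) :=
  (hu.mul_right (gs_wlap_sm hh ht hf)).add (hu.ip_left hM hh hf)

/-- Leibniz rule `Div (g w ∇f) = g Div (w ∇f) + w ⟨dg, df⟩`. -/
theorem rm_wdiv_mul (hM : IsMfd d M) (hh : IsMetricOn d M h) {g w : V → ℝ}
    (hg : SmoothAlong d M g) (hw : SmoothAlong d M w) (hf : SmoothAlong d M f) {x : V}
    (hx : x ∈ M) :
    wdiv d M h t (fun y => g y * w y) f x =
      g x * wdiv d M h t w f x + w x * gradIp d M h g f x := by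
  unfold wdiv
  rw [gs_ip_mul_left hM hh hg hw hf hx]
  ring

/-! ## integrability -/

section meas

variable [MeasurableSpace V] [BorelSpace V]

theorem rm_measurableSet (hM : IsMfd d M) : MeasurableSet M := by
  have := FiniteDimensional.proper_real V
  exact if_measurableSet hM

theorem rm_ae_mem {ν : Measure V} (hν : ν Mᶜ = 0) : ∀ᵐ x ∂ν, x ∈ M := mem_ae_iff.2 hν

theorem rm_aesm {ν : Measure V} (hM : IsMfd d M) (hν : ν Mᶜ = 0) {F : V → ℝ}
    (hF : ContinuousOn F M) : AEStronglyMeasurable F ν := by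
  have := FiniteDimensional.proper_real V
  have h1 := hF.aestronglyMeasurable (μ := ν) (rm_measurableSet hM)
  rwa [Measure.restrict_eq_self_of_ae_mem (rm_ae_mem hν)] at h1

theorem rm_integrable_of {ν : Measure V} (hM : IsMfd d M) (hν : ν Mᶜ = 0) {F : V → ℝ}
    (hF : ContinuousOn F M) {K : Set V} (hK : IsCompact K) (hKM : K ⊆ M) (hνK : ν K ≠ ⊤)
    (h0 : ∀ x ∈ M, x ∉ K → F x = 0) : Integrable F ν := by
  obtain ⟨C, hC0, hC⟩ := rm_cc_bdd hF ⟨K, hK, hKM, h0⟩
  have h1 : Integrable (K.indicator fun _ => C) ν :=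
    (integrable_indicator_iff hK.measurableSet).2 (integrableOn_const hνK)
  refine h1.mono' (rm_aesm hM hν hF) ?_
  filter_upwards [rm_ae_mem hν] with x hx
  by_cases hxK : x ∈ K
  · rw [indicator_of_mem hxK]
    exact hC x hx
  · rw [indicator_of_notMem hxK, h0 x hx hxK, norm_zero]

theorem rm_int_wvol (hG : CtGeo d M h t) {F : V → ℝ} (hF : ContinuousOn F M) (hc : CtCS M F) :
    Integrable F (wvol d M h t) := by
  obtain ⟨K, hK, hKM, h0⟩ := hc
  exact rm_integrable_of hG.mfd (ct_wvol_compl hG) hF hK hKM (ct_wvol_compact hG hK hKM) h0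

theorem rm_int_wper (hG : CtGeo d M h t) {B : Set V} (hB : CtLF d M h t B) {F : V → ℝ}
    (hF : ContinuousOn F M) (hc : CtCS M F) : Integrable F (wper d M h t B) := by
  obtain ⟨K, hK, hKM, h0⟩ := hc
  exact rm_integrable_of hG.mfd (ct_wper_compl_M hG hB.meas) hF hK hKM (hB.fin K hK hKM) h0

theorem rm_Test.int_wvol (hG : CtGeo d M h t) (hu : rm_Test d M u) :
    Integrable u (wvol d M h t) :=
  rm_int_wvol hG (if_smoothAlong_continuousOn hG.mfd hu.sm) hu.cs

theorem rm_Test.int_wper (hG : CtGeo d M h t) {B : Set V} (hB : CtLF d M h t B)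
    (hu : rm_Test d M u) : Integrable u (wper d M h t B) :=
  rm_int_wper hG hB (if_smoothAlong_continuousOn hG.mfd hu.sm) hu.cs

/-! ## the difference of the integrals over two sets -/

/-- `∫_S F - ∫_T F`. -/
noncomputable def rm_L (μ : Measure V) (S T : Set V) (F : V → ℝ) : ℝ :=
  ∫ x in S, F x ∂μ - ∫ x in T, F x ∂μ

variable {μ : Measure V} {S T : Set V} {F G : V → ℝ}

theorem rm_L_add (hF : Integrable F μ) (hG : Integrable G μ) :
    rm_L μ S T (fun x => F x + G x) = rm_L μ S T F + rm_L μ S T G := by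
  unfold rm_L
  rw [integral_add hF.integrableOn hG.integrableOn, integral_add hF.integrableOn hG.integrableOn]
  ring

theorem rm_L_sub (hF : Integrable F μ) (hG : Integrable G μ) :
    rm_L μ S T (fun x => F x - G x) = rm_L μ S T F - rm_L μ S T G := by
  unfold rm_L
  rw [integral_sub hF.integrableOn hG.integrableOn, integral_sub hF.integrableOn hG.integrableOn]
  ring

theorem rm_L_smul (c : ℝ) (F : V → ℝ) :
    rm_L μ S T (fun x => c * F x) = c * rm_L μ S T F := by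
  unfold rm_L
  rw [integral_const_mul, integral_const_mul]
  ring

theorem rm_L_eq_diff (hS : MeasurableSet S) (hT : MeasurableSet T) (hF : Integrable F μ) :
    rm_L μ S T F = ∫ x in S \ T, F x ∂μ - ∫ x in T \ S, F x ∂μ := by
  unfold rm_L
  rw [← integral_inter_add_sdiff hT hF.integrableOn, ← integral_inter_add_sdiff (s := T) hS
    hF.integrableOn, inter_comm T S]
  ring

theorem rm_L_congr (hS : MeasurableSet S) (hT : MeasurableSet T) (hF : Integrable F μ)
    (hG : Integrable G μ) (he : ∀ x ∈ symmDiff S T, F x = G x) : rm_L μ S T F = rm_L μ S T G := by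
  rw [rm_L_eq_diff hS hT hF, rm_L_eq_diff hS hT hG,
    setIntegral_congr_fun (hS.diff hT) fun x hx => he x (Or.inl hx),
    setIntegral_congr_fun (hT.diff hS) fun x hx => he x (Or.inr hx)]

theorem rm_L_abs_le (hS : MeasurableSet S) (hT : MeasurableSet T) (hF : Integrable F μ)
    (hfin : μ (symmDiff S T) ≠ ⊤) {C : ℝ} (hC : ∀ x ∈ symmDiff S T, |F x| ≤ C) :
    |rm_L μ S T F| ≤ C * (μ (symmDiff S T)).toReal := by
  have h1 : μ (S \ T) ≠ ⊤ := ne_top_of_le_ne_top hfin (measure_mono fun x hx => Or.inl hx)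
  have h2 : μ (T \ S) ≠ ⊤ := ne_top_of_le_ne_top hfin (measure_mono fun x hx => Or.inr hx)
  have h3 : μ (symmDiff S T) = μ (S \ T) + μ (T \ S) := by
    rw [Set.symmDiff_def]
    exact measure_union (disjoint_sdiff_sdiff) (hT.diff hS)
  rw [rm_L_eq_diff hS hT hF, h3, ENNReal.toReal_add h1 h2, mul_add]
  have e1 := norm_setIntegral_le_of_norm_le_const (μ := μ) (f := F) (s := S \ T) (C := C)
    h1.lt_top fun x hx => hC x (Or.inl hx)
  have e2 := norm_setIntegral_le_of_norm_le_const (μ := μ) (f := F) (s := T \ S) (C := C)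
    h2.lt_top fun x hx => hC x (Or.inr hx)
  rw [Real.norm_eq_abs] at e1 e2
  calc |∫ x in S \ T, F x ∂μ - ∫ x in T \ S, F x ∂μ|
      ≤ |∫ x in S \ T, F x ∂μ| + |∫ x in T \ S, F x ∂μ| := abs_sub _ _
    _ ≤ _ := add_le_add e1 e2

theorem rm_L_one (hS : MeasurableSet S) (hT : MeasurableSet T) (hF : Integrable F μ)
    (hfin : μ (symmDiff S T) ≠ ⊤) (h1 : ∀ x ∈ symmDiff S T, F x = 1) (hsub : S ⊆ T ∨ T ⊆ S) :
    |rm_L μ S T F| = (μ (symmDiff S T)).toReal := by
  have e : ∀ R : Set V, MeasurableSet R → R ⊆ symmDiff S T → ∫ x in R, F x ∂μ = (μ R).toReal := by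
    intro R hR hRs
    rw [setIntegral_congr_fun hR (g := fun _ => (1 : ℝ)) fun x hx => h1 x (hRs hx)]
    simp [Measure.real]
  rw [rm_L_eq_diff hS hT hF, e _ (hS.diff hT) fun x hx => Or.inl hx,
    e _ (hT.diff hS) fun x hx => Or.inr hx, Set.symmDiff_def]
  rcases hsub with hsub | hsub
  · rw [sdiff_eq_empty.2 hsub]
    simp
  · rw [sdiff_eq_empty.2 hsub]
    simp

end meas

end Claimed.Agent.R315
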