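import Claimed.Agent.R315.Rm.VarA

/-!
# Row 315, SC-RIEM, stability of the wall (P Lemma B.8), part B: the family `A_ε = {φ < ε η}` (prefix `rm_`)

`φ` a function without critical points on `M`, `η` a test function, `f_ε = φ - ε η`, `A_ε = {f_ε < 0}`, `A_0 = {φ < 0}`,
`a = |dφ|²`, `N = |dφ|`, `b = ⟨dφ, dη⟩`, `c = |dη|²`, `L_ε F = ∫_{A_ε} F - ∫_{A_0} F`, `m(ε) = μ(A_ε △ A_0)`.

ALL identities come from Gauss-Green for smooth domains (`ct_gg_def`) with fields `u ∇φ`: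
* `rm_gg_diff` : `L_ε (Div (u ∇φ)) = ∫ u ⟨dφ, df_ε⟩/|df_ε| dP_ε - ∫ u N dP_0`;
* `rm_I` : if `G = 0` on `{f_ε = 0}`, `w = k/a`, `T k = Div (w ∇φ)`: `L_ε (G T k + w ⟨dG, dφ⟩) = - ∫ G k/N dP_0`;
* `rm_I1` (`G = f_ε`), `rm_I2` (`G = f_ε²/2`);
* `rm_m_le` : `m(ε) ≤ C |ε|`;
* `rm_B1`, `rm_B2`, `rm_B3` : expansions of `L_ε k`, `L_ε (f_ε k)` with explicit error bounds.
Owner: helper39.
-/

set_option autoImplicit false
set_option linter.unusedSectionVars false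
set_option linter.unusedVariables false
open scoped ContDiff Topology ENNReal
open MeasureTheory Claims.C0499 Set

namespace Claimed.Agent.R315

variable {V : Type} [NormedAddCommGroup V] [NormedSpace ℝ V] [FiniteDimensional ℝ V]
variable {d : ℕ} {M : Set V} {h : Ten V} {t φ η : V → ℝ}

/-- standing data: `φ` has no critical points on `M`. -/
structure rm_VD (d : ℕ) (M : Set V) (h : Ten V) (t φ : V → ℝ) : Prop where
  geo : CtGeo d M h t
  sm : SmoothAlong d M φ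
  reg : ∀ x ∈ M, 0 < gradSq d M h φ x

/-- `f_ε = φ - ε η`. -/
def rm_f (φ η : V → ℝ) (ε : ℝ) : V → ℝ := fun y => φ y - ε * η y

/-- `A_ε = {f_ε < 0}`. -/
def rm_A (M : Set V) (φ η : V → ℝ) (ε : ℝ) : Set V := {x | x ∈ M ∧ rm_f φ η ε x < 0}

/-- `A_0 = {φ < 0}`. -/
def rm_A0 (M : Set V) (φ : V → ℝ) : Set V := {x | x ∈ M ∧ φ x < 0}

/-- `ε` is small: `|ε b| ≤ a/4`. -/
def rm_Ok (d : ℕ) (M : Set V) (h : Ten V) (φ η : V → ℝ) (ε : ℝ) : Prop :=
  ∀ x ∈ M, |ε| * |gradIp d M h φ η x| ≤ gradSq d M h φ x / 4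

namespace rm_VD

variable (D : rm_VD d M h t φ)
include D

theorem a_sm : SmoothAlong d M (gradSq d M h φ) := if_gradSq_smoothAlong D.geo.met D.sm

theorem a_ne : ∀ x ∈ M, gradSq d M h φ x ≠ 0 := fun x hx => (D.reg x hx).ne'

theorem N_pos : ∀ x ∈ M, 0 < gradN d M h φ x := fun x hx => Real.sqrt_pos.2 (D.reg x hx)

theorem N_ne : ∀ x ∈ M, gradN d M h φ x ≠ 0 := fun x hx => (D.N_pos x hx).ne'

theorem N_sm : SmoothAlong d M (gradN d M h φ) := gs_sm_sqrt D.a_sm D.reg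

theorem N_sq {x : V} (hx : x ∈ M) : gradN d M h φ x ^ 2 = gradSq d M h φ x :=
  Real.sq_sqrt (D.reg x hx).le

theorem f_sm (hη : SmoothAlong d M η) (ε : ℝ) : SmoothAlong d M (rm_f φ η ε) :=
  gs_sm_sub D.sm (gs_sm_smul ε hη)

theorem ip_f (hη : SmoothAlong d M η) (ε : ℝ) {x : V} (hx : x ∈ M) :
    gradIp d M h φ (rm_f φ η ε) x = gradSq d M h φ x - ε * gradIp d M h φ η x := by
  unfold rm_f
  rw [gs_ip_sub_right D.geo.mfd D.geo.met D.sm (gs_sm_smul ε hη) D.sm hx,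
    gs_ip_smul_right D.geo.mfd D.geo.met ε hη D.sm hx]
  rfl

theorem f_ip (hη : SmoothAlong d M η) (ε : ℝ) {x : V} (hx : x ∈ M) :
    gradIp d M h (rm_f φ η ε) φ x = gradSq d M h φ x - ε * gradIp d M h φ η x := by
  rw [gs_ip_comm D.geo.mfd D.geo.met (D.f_sm hη ε) D.sm hx, D.ip_f hη ε hx]

theorem sq_f (hη : SmoothAlong d M η) (ε : ℝ) {x : V} (hx : x ∈ M) :
    gradSq d M h (rm_f φ η ε) x = gradSq d M h φ x - 2 * ε * gradIp d M h φ η x +
      ε ^ 2 * gradSq d M h η x := by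
  unfold rm_f
  rw [gs_sq_sub D.geo.mfd D.geo.met D.sm (gs_sm_smul ε hη) hx,
    gs_ip_smul_right D.geo.mfd D.geo.met ε hη D.sm hx, gs_sq_smul D.geo.mfd D.geo.met ε hη hx]
  ring

/-- every continuous function with compact support is dominated by `a = |dφ|²`. -/
theorem dom {F : V → ℝ} (hF : ContinuousOn F M) (hc : CtCS M F) :
    ∃ c : ℝ, 0 ≤ c ∧ ∀ x ∈ M, |F x| ≤ c * gradSq d M h φ x := by
  obtain ⟨C, hC0, hC⟩ := rm_cc_bdd hF hc
  obtain ⟨K, hK, hKM, h0⟩ := hc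
  obtain ⟨a₀, ha₀, ha⟩ := rm_pos_lower (if_smoothAlong_continuousOn D.geo.mfd D.a_sm) D.reg hK hKM
  refine ⟨C / a₀, by positivity, fun x hx => ?_⟩
  by_cases hxK : x ∈ K
  · calc |F x| ≤ C := hC x hx
      _ = C / a₀ * a₀ := by field_simp
      _ ≤ C / a₀ * gradSq d M h φ x := mul_le_mul_of_nonneg_left (ha x hxK) (by positivity)
  · rw [h0 x hx hxK, abs_zero]
    exact mul_nonneg (by positivity) (D.reg x hx).le

/-- `|b| ≤ c_b a`. -/
theorem dom_b (hη : rm_Test d M η) :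
    ∃ c : ℝ, 0 ≤ c ∧ ∀ x ∈ M, |gradIp d M h φ η x| ≤ c * gradSq d M h φ x := by
  have h1 := hη.ip_right D.geo.mfd D.geo.met D.sm
  exact D.dom (if_smoothAlong_continuousOn D.geo.mfd h1.sm) h1.cs

/-- `|df_ε|² ≥ a/2` for small `ε`. -/
theorem sq_f_ge (hη : SmoothAlong d M η) {ε : ℝ} (hok : rm_Ok d M h φ η ε) {x : V}
    (hx : x ∈ M) : gradSq d M h φ x / 2 ≤ gradSq d M h (rm_f φ η ε) x := by
  rw [D.sq_f hη ε hx]
  have h2 := D.reg x hx
  have h3 := gs_sq_nonneg D.geo.mfd D.geo.met hη hx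
  have h4 : |ε * gradIp d M h φ η x| ≤ gradSq d M h φ x / 4 := by
    rw [abs_mul]
    exact hok x hx
  have h5 := (abs_le.1 h4).2
  nlinarith [sq_nonneg ε]

theorem ok_of_dom {c ε : ℝ} (hc : ∀ x ∈ M, |gradIp d M h φ η x| ≤ c * gradSq d M h φ x)
    (hε : |ε| * c ≤ 1 / 4) : rm_Ok d M h φ η ε := by
  intro x hx
  have h2 := D.reg x hx
  calc |ε| * |gradIp d M h φ η x| ≤ |ε| * (c * gradSq d M h φ x) :=
        mul_le_mul_of_nonneg_left (hc x hx) (abs_nonneg _)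
    _ = (|ε| * c) * gradSq d M h φ x := by ring
    _ ≤ 1 / 4 * gradSq d M h φ x := mul_le_mul_of_nonneg_right hε h2.le
    _ = _ := by ring

theorem f_reg (hη : SmoothAlong d M η) {ε : ℝ} (hok : rm_Ok d M h φ η ε) :
    ∀ x ∈ M, 0 < gradSq d M h (rm_f φ η ε) x := fun x hx =>
  lt_of_lt_of_le (half_pos (D.reg x hx)) (D.sq_f_ge hη hok hx)

/-- `f_ε` satisfies the standing hypotheses. -/
theorem f_VD (hη : SmoothAlong d M η) {ε : ℝ} (hok : rm_Ok d M h φ η ε) :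
    rm_VD d M h t (rm_f φ η ε) := ⟨D.geo, D.f_sm hη ε, D.f_reg hη hok⟩

end rm_VD

/-- the layer `A_ε △ A_0`. -/
theorem rm_layer {ε : ℝ} {x : V} (hx : x ∈ symmDiff (rm_A M φ η ε) (rm_A0 M φ)) :
    x ∈ M ∧ |rm_f φ η ε x| ≤ |ε| * |η x| ∧ |φ x| ≤ |ε| * |η x| ∧ η x ≠ 0 := by
  rw [← abs_mul]
  rcases hx with ⟨⟨hxM, h1⟩, h2⟩ | ⟨⟨hxM, h1⟩, h2⟩
  · have h3 : 0 ≤ φ x := by
      by_contra hlt
      exact h2 ⟨hxM, not_le.1 hlt⟩
    have h1' : φ x - ε * η x < 0 := h1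
    have h4 : 0 < ε * η x := by linarith
    refine ⟨hxM, ?_, ?_, fun h0 => by rw [h0, mul_zero] at h4; exact lt_irrefl _ h4⟩
    · show |φ x - ε * η x| ≤ _
      rw [abs_of_neg h1', abs_of_pos h4]; linarith
    · rw [abs_of_nonneg h3, abs_of_pos h4]; linarith
  · have h3 : 0 ≤ φ x - ε * η x := by
      by_contra hlt
      exact h2 ⟨hxM, not_le.1 hlt⟩
    have h4 : ε * η x < 0 := by linarith
    refine ⟨hxM, ?_, ?_, fun h0 => by rw [h0, mul_zero] at h4; exact lt_irrefl _ h4⟩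
    · show |φ x - ε * η x| ≤ _
      rw [abs_of_nonneg h3, abs_of_neg h4]; linarith
    · rw [abs_of_neg h1, abs_of_neg h4]; linarith

section meas

variable [MeasurableSpace V] [BorelSpace V]

/-- `m(ε) = μ(A_ε △ A_0)`. -/
noncomputable def rm_m (d : ℕ) (M : Set V) (h : Ten V) (t φ η : V → ℝ) (ε : ℝ) : ℝ :=
  (wvol d M h t (symmDiff (rm_A M φ η ε) (rm_A0 M φ))).toReal

theorem rm_m_nonneg (ε : ℝ) : 0 ≤ rm_m d M h t φ η ε := ENNReal.toReal_nonneg

/-- `T k = Div ((k/a) ∇φ)`. -/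
noncomputable def rm_T (d : ℕ) (M : Set V) (h : Ten V) (t φ k : V → ℝ) : V → ℝ :=
  wdiv d M h t (fun x => k x / gradSq d M h φ x) φ

namespace rm_VD

variable (D : rm_VD d M h t φ)
include D

theorem A0_meas : MeasurableSet (rm_A0 M φ) := ct_measurableSet_lt D.geo D.sm 0

theorem A_meas (hη : SmoothAlong d M η) (ε : ℝ) : MeasurableSet (rm_A M φ η ε) :=
  ct_measurableSet_lt D.geo (D.f_sm hη ε) 0

theorem A0_def : CtDef d M h (rm_A0 M φ) φ :=
  ⟨D.sm, D.reg, by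
    have : symmDiff (rm_A0 M φ) {x | x ∈ M ∧ φ x < 0} = ∅ := symmDiff_self _
    rw [this, measure_empty]⟩

theorem A_def (hη : SmoothAlong d M η) {ε : ℝ} (hok : rm_Ok d M h φ η ε) :
    CtDef d M h (rm_A M φ η ε) (rm_f φ η ε) := (D.f_VD hη hok).A0_def

theorem A0_lf : CtLF d M h t (rm_A0 M φ) :=
  CtDef.lf D.geo D.A0_meas (fun _ hx => hx.1) D.A0_def

theorem A_lf (hη : SmoothAlong d M η) {ε : ℝ} (hok : rm_Ok d M h φ η ε) :
    CtLF d M h t (rm_A M φ η ε) := (D.f_VD hη hok).A0_lf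

theorem layer_fin (hη : CtCS M η) (ε : ℝ) :
    wvol d M h t (symmDiff (rm_A M φ η ε) (rm_A0 M φ)) ≠ ⊤ := by
  obtain ⟨K, hK, hKM, h0⟩ := hη
  refine ne_top_of_le_ne_top (ct_wvol_compact D.geo hK hKM) (measure_mono fun x hx => ?_)
  obtain ⟨hxM, -, -, hne⟩ := rm_layer hx
  by_contra hxK
  exact hne (h0 x hxM hxK)

/-- a.e. on the boundary of `A_0`: `x ∈ M`, `φ x = 0`. -/
theorem ae_P0 : ∀ᵐ x ∂(wper d M h t (rm_A0 M φ)), x ∈ M ∧ φ x = 0 := by
  have h1 := rm_ae_mem (ct_wper_compl_M D.geo D.A0_meas)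
  have h2 : ∀ᵐ x ∂(wper d M h t (rm_A0 M φ)), φ x = 0 := by
    refine mem_ae_iff.2 ?_
    have e : {x | φ x = 0}ᶜ = {x | φ x ≠ 0} := rfl
    rw [e]
    exact ct_wper_def_level D.geo D.A0_meas D.A0_def
  filter_upwards [h1, h2] with x hx hx2
  exact ⟨hx, hx2⟩

/-- **Gauss-Green for the pair `(A_ε, A_0)` and the field `u ∇φ`.** -/
theorem gg_diff (hη : SmoothAlong d M η) {ε : ℝ} (hok : rm_Ok d M h φ η ε) {u : V → ℝ}
    (hu : rm_Test d M u) :
    rm_L (wvol d M h t) (rm_A M φ η ε) (rm_A0 M φ) (wdiv d M h t u φ) =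
      ∫ x, u x * gradIp d M h φ (rm_f φ η ε) x / gradN d M h (rm_f φ η ε) x
        ∂(wper d M h t (rm_A M φ η ε)) -
      ∫ x, u x * gradN d M h φ x ∂(wper d M h t (rm_A0 M φ)) := by
  unfold rm_L
  rw [ct_gg_def D.geo (D.A_meas hη ε) (fun _ hx => hx.1) (D.A_def hη hok) hu.sm D.sm hu.cs,
    ct_gg_def D.geo D.A0_meas (fun _ hx => hx.1) D.A0_def hu.sm D.sm hu.cs]
  congr 1
  refine integral_congr_ae ?_
  filter_upwards [D.ae_P0] with x hx
  have h1 := D.N_pos x hx.1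
  have h2 : gradIp d M h φ φ x = gradN d M h φ x ^ 2 := (D.N_sq hx.1).symm
  rw [h2]
  field_simp

theorem T_test {k : V → ℝ} (hk : rm_Test d M k) : rm_Test d M (rm_T d M h t φ k) :=
  (hk.div D.a_sm D.a_ne).wdiv D.geo.mfd D.geo.met D.geo.drift D.sm

/-- **the basic identity**: `G = 0` on the moving boundary `{f_ε = 0}`. -/
theorem I_gen (hη : SmoothAlong d M η) {ε : ℝ} (hok : rm_Ok d M h φ η ε) {k G : V → ℝ}
    (hk : rm_Test d M k) (hG : SmoothAlong d M G) (hG0 : ∀ x ∈ M, rm_f φ η ε x = 0 → G x = 0) :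
    rm_L (wvol d M h t) (rm_A M φ η ε) (rm_A0 M φ)
        (fun x => G x * rm_T d M h t φ k x + k x / gradSq d M h φ x * gradIp d M h G φ x) =
      - ∫ x, G x * k x / gradN d M h φ x ∂(wper d M h t (rm_A0 M φ)) := by
  have hw := hk.div D.a_sm D.a_ne
  have hu : rm_Test d M (fun x => G x * (k x / gradSq d M h φ x)) := hw.mul_left hG
  have h1 := D.gg_diff hη hok hu
  have h2 : ∫ x, G x * (k x / gradSq d M h φ x) * gradIp d M h φ (rm_f φ η ε) x /
      gradN d M h (rm_f φ η ε) x ∂(wper d M h t (rm_A M φ η ε)) = 0 := by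
    rw [← integral_zero V ℝ (μ := wper d M h t (rm_A M φ η ε))]
    refine integral_congr_ae ?_
    filter_upwards [(D.f_VD hη hok).ae_P0] with x hx
    rw [hG0 x hx.1 hx.2]
    simp
  have h3 : ∫ x, G x * (k x / gradSq d M h φ x) * gradN d M h φ x ∂(wper d M h t (rm_A0 M φ)) =
      ∫ x, G x * k x / gradN d M h φ x ∂(wper d M h t (rm_A0 M φ)) := by
    refine integral_congr_ae ?_
    filter_upwards [D.ae_P0] with x hx
    have e1 := D.N_pos x hx.1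
    rw [← D.N_sq hx.1]
    field_simp
  rw [h2, h3, zero_sub] at h1
  rw [← h1]
  refine rm_L_congr (D.A_meas hη ε) D.A0_meas ?_ ?_ fun x hx => ?_
  · exact (((D.T_test hk).mul_left hG).add
      (hw.mul_right (if_gradIp_smoothAlong D.geo.met hG D.sm))).int_wvol D.geo
  · exact (hu.wdiv D.geo.mfd D.geo.met D.geo.drift D.sm).int_wvol D.geo
  · exact (rm_wdiv_mul D.geo.mfd D.geo.met hG hw.sm D.sm (rm_layer hx).1).symm

theorem kba_test (hη : SmoothAlong d M η) {k : V → ℝ} (hk : rm_Test d M k) :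
    rm_Test d M (fun x => k x * gradIp d M h φ η x / gradSq d M h φ x) :=
  (hk.mul_right (if_gradIp_smoothAlong D.geo.met D.sm hη)).div D.a_sm D.a_ne

/-- identity (I1): `G = f_ε`. -/
theorem I1 (hη : SmoothAlong d M η) {ε : ℝ} (hok : rm_Ok d M h φ η ε) {k : V → ℝ}
    (hk : rm_Test d M k) :
    rm_L (wvol d M h t) (rm_A M φ η ε) (rm_A0 M φ) k =
      ε * ∫ x, η x * k x / gradN d M h φ x ∂(wper d M h t (rm_A0 M φ)) -
      rm_L (wvol d M h t) (rm_A M φ η ε) (rm_A0 M φ) (fun x => rm_f φ η ε x * rm_T d M h t φ k x) +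
      ε * rm_L (wvol d M h t) (rm_A M φ η ε) (rm_A0 M φ)
        (fun x => k x * gradIp d M h φ η x / gradSq d M h φ x) := by
  have hf := D.f_sm hη ε
  have h1 := D.I_gen hη hok hk hf (fun x _ hx => hx)
  have i1 := ((D.T_test hk).mul_left hf).int_wvol D.geo
  have i2 := hk.int_wvol D.geo
  have i3 := (D.kba_test hη hk).int_wvol D.geo
  have e1 : rm_L (wvol d M h t) (rm_A M φ η ε) (rm_A0 M φ)
      (fun x => rm_f φ η ε x * rm_T d M h t φ k x +
        k x / gradSq d M h φ x * gradIp d M h (rm_f φ η ε) φ x) =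
      rm_L (wvol d M h t) (rm_A M φ η ε) (rm_A0 M φ)
      (fun x => (rm_f φ η ε x * rm_T d M h t φ k x + k x) -
        ε * (k x * gradIp d M h φ η x / gradSq d M h φ x)) := by
    refine rm_L_congr (D.A_meas hη ε) D.A0_meas ?_ ((i1.add i2).sub (i3.const_mul ε))
      fun x hx => ?_
    · exact (((D.T_test hk).mul_left hf).add ((hk.div D.a_sm D.a_ne).mul_right
        (if_gradIp_smoothAlong D.geo.met hf D.sm))).int_wvol D.geo
    · have hxM := (rm_layer hx).1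
      have ha := D.a_ne x hxM
      rw [D.f_ip hη ε hxM]
      field_simp
      ring
  have e2 : ∫ x, rm_f φ η ε x * k x / gradN d M h φ x ∂(wper d M h t (rm_A0 M φ)) =
      - (ε * ∫ x, η x * k x / gradN d M h φ x ∂(wper d M h t (rm_A0 M φ))) := by
    rw [← integral_const_mul, ← integral_neg]
    refine integral_congr_ae ?_
    filter_upwards [D.ae_P0] with x hx
    show (φ x - ε * η x) * k x / gradN d M h φ x = _
    rw [hx.2]
    ring
  rw [e1, e2, rm_L_sub (F := fun x => rm_f φ η ε x * rm_T d M h t φ k x + k x)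
    (G := fun x => ε * (k x * gradIp d M h φ η x / gradSq d M h φ x)) (i1.add i2) (i3.const_mul ε),
    rm_L_add i1 i2, rm_L_smul] at h1
  linarith

/-- identity (I2): `G = f_ε²/2`. -/
theorem I2 (hη : SmoothAlong d M η) {ε : ℝ} (hok : rm_Ok d M h φ η ε) {k : V → ℝ}
    (hk : rm_Test d M k) :
    rm_L (wvol d M h t) (rm_A M φ η ε) (rm_A0 M φ) (fun x => rm_f φ η ε x * k x) =
      - (ε ^ 2 / 2 * ∫ x, η x ^ 2 * k x / gradN d M h φ x ∂(wper d M h t (rm_A0 M φ))) -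
      1 / 2 * rm_L (wvol d M h t) (rm_A M φ η ε) (rm_A0 M φ)
        (fun x => rm_f φ η ε x ^ 2 * rm_T d M h t φ k x) +
      ε * rm_L (wvol d M h t) (rm_A M φ η ε) (rm_A0 M φ)
        (fun x => rm_f φ η ε x * (k x * gradIp d M h φ η x / gradSq d M h φ x)) := by
  have hf := D.f_sm hη ε
  set G : V → ℝ := fun x => 1 / 2 * (rm_f φ η ε x * rm_f φ η ε x) with hGdef
  have hG : SmoothAlong d M G := gs_sm_smul _ (gs_sm_mul hf hf)
  have h1 := D.I_gen hη hok hk hG (fun x _ hx => by rw [hGdef]; simp only [hx]; ring)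
  set F1 : V → ℝ := fun x => rm_f φ η ε x ^ 2 * rm_T d M h t φ k x with hF1
  set F2 : V → ℝ := fun x => rm_f φ η ε x * k x with hF2
  set F3 : V → ℝ := fun x => rm_f φ η ε x * (k x * gradIp d M h φ η x / gradSq d M h φ x) with hF3
  have i1 : Integrable F1 (wvol d M h t) := ((D.T_test hk).mul_left (gs_sm_pow hf 2)).int_wvol D.geo
  have i2 : Integrable F2 (wvol d M h t) := (hk.mul_left hf).int_wvol D.geo
  have i3 : Integrable F3 (wvol d M h t) := ((D.kba_test hη hk).mul_left hf).int_wvol D.geo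
  have i4 : Integrable (fun x => 1 / 2 * F1 x) (wvol d M h t) := i1.const_mul _
  have i5 : Integrable (fun x => ε * F3 x) (wvol d M h t) := i3.const_mul _
  have i6 : Integrable (fun x => 1 / 2 * F1 x + F2 x) (wvol d M h t) := i4.add i2
  have i7 : Integrable (fun x => (1 / 2 * F1 x + F2 x) - ε * F3 x) (wvol d M h t) := i6.sub i5
  have e1 : rm_L (wvol d M h t) (rm_A M φ η ε) (rm_A0 M φ)
      (fun x => G x * rm_T d M h t φ k x + k x / gradSq d M h φ x * gradIp d M h G φ x) =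
      rm_L (wvol d M h t) (rm_A M φ η ε) (rm_A0 M φ)
      (fun x => (1 / 2 * F1 x + F2 x) - ε * F3 x) := by
    refine rm_L_congr (D.A_meas hη ε) D.A0_meas ?_ i7 fun x hx => ?_
    · exact (((D.T_test hk).mul_left hG).add ((hk.div D.a_sm D.a_ne).mul_right
        (if_gradIp_smoothAlong D.geo.met hG D.sm))).int_wvol D.geo
    · have hxM := (rm_layer hx).1
      have ha := D.a_ne x hxM
      have e : gradIp d M h G φ x =
          rm_f φ η ε x * (gradSq d M h φ x - ε * gradIp d M h φ η x) := by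
        rw [hGdef, gs_ip_smul_left D.geo.mfd D.geo.met _ (gs_sm_mul hf hf) D.sm hxM,
          gs_ip_mul_left D.geo.mfd D.geo.met hf hf D.sm hxM, D.f_ip hη ε hxM]
        ring
      rw [e]
      simp only [hGdef, hF1, hF2, hF3]
      generalize rm_f φ η ε x = A1
      generalize rm_T d M h t φ k x = A2
      generalize gradIp d M h φ η x = A3
      generalize gradSq d M h φ x = A4 at ha ⊢
      field_simp
      ring
  have e2 : ∫ x, G x * k x / gradN d M h φ x ∂(wper d M h t (rm_A0 M φ)) =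
      ε ^ 2 / 2 * ∫ x, η x ^ 2 * k x / gradN d M h φ x ∂(wper d M h t (rm_A0 M φ)) := by
    rw [← integral_const_mul]
    refine integral_congr_ae ?_
    filter_upwards [D.ae_P0] with x hx
    show 1 / 2 * ((φ x - ε * η x) * (φ x - ε * η x)) * k x / gradN d M h φ x = _
    rw [hx.2]
    ring
  rw [e1, e2, rm_L_sub i6 i5, rm_L_add i4 i2, rm_L_smul, rm_L_smul] at h1
  linarith

theorem L_le (hη : rm_Test d M η) (ε : ℝ) {F : V → ℝ} (hF : Integrable F (wvol d M h t)) {C : ℝ}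
    (hC : ∀ x ∈ symmDiff (rm_A M φ η ε) (rm_A0 M φ), |F x| ≤ C) :
    |rm_L (wvol d M h t) (rm_A M φ η ε) (rm_A0 M φ) F| ≤ C * rm_m d M h t φ η ε :=
  rm_L_abs_le (D.A_meas hη.sm ε) D.A0_meas hF (D.layer_fin hη.cs ε) hC

/-- first order expansion of `L_ε k`. -/
theorem B1 (hη : rm_Test d M η) {k : V → ℝ} (hk : rm_Test d M k) :
    ∃ C : ℝ, 0 ≤ C ∧ ∀ ε : ℝ, rm_Ok d M h φ η ε →
      |rm_L (wvol d M h t) (rm_A M φ η ε) (rm_A0 M φ) k -
        ε * ∫ x, η x * k x / gradN d M h φ x ∂(wper d M h t (rm_A0 M φ))| ≤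
      C * |ε| * rm_m d M h t φ η ε := by
  obtain ⟨Cη, hCη0, hCη⟩ := hη.bdd D.geo.mfd
  obtain ⟨CT, hCT0, hCT⟩ := (D.T_test hk).bdd D.geo.mfd
  obtain ⟨C3, hC30, hC3⟩ := (D.kba_test hη.sm hk).bdd D.geo.mfd
  refine ⟨Cη * CT + C3, by positivity, fun ε hok => ?_⟩
  have hf := D.f_sm hη.sm ε
  have h1 := D.I1 hη.sm hok hk
  have b1 := D.L_le hη ε (((D.T_test hk).mul_left hf).int_wvol D.geo) (C := |ε| * Cη * CT)
    fun x hx => by
      obtain ⟨hxM, h2, -, -⟩ := rm_layer hx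
      rw [abs_mul]
      exact mul_le_mul (h2.trans (mul_le_mul_of_nonneg_left (hCη x hxM) (abs_nonneg _)))
        (hCT x hxM) (abs_nonneg _) (by positivity)
  have b2 := D.L_le hη ε ((D.kba_test hη.sm hk).int_wvol D.geo) (C := C3)
    fun x hx => hC3 x (rm_layer hx).1
  have hm := rm_m_nonneg (d := d) (M := M) (h := h) (t := t) (φ := φ) (η := η) ε
  rw [h1]
  set X := rm_L (wvol d M h t) (rm_A M φ η ε) (rm_A0 M φ)
    (fun x => rm_f φ η ε x * rm_T d M h t φ k x)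
  set Y := rm_L (wvol d M h t) (rm_A M φ η ε) (rm_A0 M φ)
    (fun x => k x * gradIp d M h φ η x / gradSq d M h φ x)
  set I := ∫ x, η x * k x / gradN d M h φ x ∂(wper d M h t (rm_A0 M φ))
  calc |ε * I - X + ε * Y - ε * I| = |-X + ε * Y| := by congr 1; ring
    _ ≤ |X| + |ε| * |Y| := by
        refine (abs_add_le _ _).trans ?_
        rw [abs_neg, abs_mul]
    _ ≤ |ε| * Cη * CT * rm_m d M h t φ η ε + |ε| * (C3 * rm_m d M h t φ η ε) :=
        add_le_add b1 (mul_le_mul_of_nonneg_left b2 (abs_nonneg _))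
    _ = (Cη * CT + C3) * |ε| * rm_m d M h t φ η ε := by ring

/-- second order expansion of `L_ε (f_ε k)`. -/
theorem B2 (hη : rm_Test d M η) {k : V → ℝ} (hk : rm_Test d M k) :
    ∃ C : ℝ, 0 ≤ C ∧ ∀ ε : ℝ, rm_Ok d M h φ η ε →
      |rm_L (wvol d M h t) (rm_A M φ η ε) (rm_A0 M φ) (fun x => rm_f φ η ε x * k x) +
        ε ^ 2 / 2 * ∫ x, η x ^ 2 * k x / gradN d M h φ x ∂(wper d M h t (rm_A0 M φ))| ≤
      C * ε ^ 2 * rm_m d M h t φ η ε := by
  obtain ⟨Cη, hCη0, hCη⟩ := hη.bdd D.geo.mfd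
  obtain ⟨CT, hCT0, hCT⟩ := (D.T_test hk).bdd D.geo.mfd
  obtain ⟨C3, hC30, hC3⟩ := (D.kba_test hη.sm hk).bdd D.geo.mfd
  refine ⟨Cη ^ 2 * CT + Cη * C3, by positivity, fun ε hok => ?_⟩
  have hf := D.f_sm hη.sm ε
  have h1 := D.I2 hη.sm hok hk
  have hfb : ∀ x ∈ symmDiff (rm_A M φ η ε) (rm_A0 M φ), |rm_f φ η ε x| ≤ |ε| * Cη := fun x hx => by
    obtain ⟨hxM, h2, -, -⟩ := rm_layer hx
    exact h2.trans (mul_le_mul_of_nonneg_left (hCη x hxM) (abs_nonneg _))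
  have b1 := D.L_le hη ε (((D.T_test hk).mul_left (gs_sm_pow hf 2)).int_wvol D.geo)
    (C := (|ε| * Cη) ^ 2 * CT) fun x hx => by
      rw [abs_mul, abs_pow]
      exact mul_le_mul (pow_le_pow_left₀ (abs_nonneg _) (hfb x hx) 2)
        (hCT x (rm_layer hx).1) (abs_nonneg _) (by positivity)
  have b2 := D.L_le hη ε (((D.kba_test hη.sm hk).mul_left hf).int_wvol D.geo)
    (C := |ε| * Cη * C3) fun x hx => by
      rw [abs_mul]
      exact mul_le_mul (hfb x hx) (hC3 x (rm_layer hx).1) (abs_nonneg _) (by positivity)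
  have hm := rm_m_nonneg (d := d) (M := M) (h := h) (t := t) (φ := φ) (η := η) ε
  rw [h1]
  set X := rm_L (wvol d M h t) (rm_A M φ η ε) (rm_A0 M φ)
    (fun x => rm_f φ η ε x ^ 2 * rm_T d M h t φ k x)
  set Y := rm_L (wvol d M h t) (rm_A M φ η ε) (rm_A0 M φ)
    (fun x => rm_f φ η ε x * (k x * gradIp d M h φ η x / gradSq d M h φ x))
  set I := ∫ x, η x ^ 2 * k x / gradN d M h φ x ∂(wper d M h t (rm_A0 M φ))
  have hε2 : |ε| ^ 2 = ε ^ 2 := sq_abs ε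
  calc |-(ε ^ 2 / 2 * I) - 1 / 2 * X + ε * Y + ε ^ 2 / 2 * I| = |-(1 / 2 * X) + ε * Y| := by
        congr 1; ring
    _ ≤ |X| + |ε| * |Y| := by
        refine (abs_add_le _ _).trans ?_
        rw [abs_neg, abs_mul, abs_mul]
        have : |(1 / 2 : ℝ)| * |X| ≤ |X| := by
          rw [abs_of_pos (by norm_num : (0 : ℝ) < 1 / 2)]
          linarith [abs_nonneg X]
        linarith
    _ ≤ (|ε| * Cη) ^ 2 * CT * rm_m d M h t φ η ε +
          |ε| * (|ε| * Cη * C3 * rm_m d M h t φ η ε) :=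
        add_le_add b1 (mul_le_mul_of_nonneg_left b2 (abs_nonneg _))
    _ = (Cη ^ 2 * CT + Cη * C3) * |ε| ^ 2 * rm_m d M h t φ η ε := by ring
    _ = _ := by rw [hε2]

/-- second order expansion of `L_ε k` for `k` vanishing on `{φ = 0}`. -/
theorem B3 (hη : rm_Test d M η) {k : V → ℝ} (hk : rm_Test d M k)
    (hk0 : ∀ x ∈ M, φ x = 0 → k x = 0) :
    ∃ C : ℝ, 0 ≤ C ∧ ∀ ε : ℝ, rm_Ok d M h φ η ε →
      |rm_L (wvol d M h t) (rm_A M φ η ε) (rm_A0 M φ) k -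
        ε ^ 2 / 2 * ∫ x, η x ^ 2 * rm_T d M h t φ k x / gradN d M h φ x
          ∂(wper d M h t (rm_A0 M φ))| ≤
      C * ε ^ 2 * rm_m d M h t φ η ε := by
  obtain ⟨C1, hC10, hC1⟩ := D.B1 hη (D.kba_test hη.sm hk)
  obtain ⟨C2, hC20, hC2⟩ := D.B2 hη (D.T_test hk)
  refine ⟨C2 + C1, by positivity, fun ε hok => ?_⟩
  have h1 := D.I1 hη.sm hok hk
  have z1 : ∫ x, η x * k x / gradN d M h φ x ∂(wper d M h t (rm_A0 M φ)) = 0 := by
    rw [← integral_zero V ℝ (μ := wper d M h t (rm_A0 M φ))]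
    refine integral_congr_ae ?_
    filter_upwards [D.ae_P0] with x hx
    rw [hk0 x hx.1 hx.2]
    simp
  have z2 : ∫ x, η x * (k x * gradIp d M h φ η x / gradSq d M h φ x) / gradN d M h φ x
      ∂(wper d M h t (rm_A0 M φ)) = 0 := by
    rw [← integral_zero V ℝ (μ := wper d M h t (rm_A0 M φ))]
    refine integral_congr_ae ?_
    filter_upwards [D.ae_P0] with x hx
    rw [hk0 x hx.1 hx.2]
    simp
  have b1 := hC1 ε hok
  have b2 := hC2 ε hok
  rw [z2, mul_zero, sub_zero] at b1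
  rw [h1, z1, mul_zero, zero_sub]
  have hm := rm_m_nonneg (d := d) (M := M) (h := h) (t := t) (φ := φ) (η := η) ε
  set X := rm_L (wvol d M h t) (rm_A M φ η ε) (rm_A0 M φ)
    (fun x => rm_f φ η ε x * rm_T d M h t φ k x)
  set Y := rm_L (wvol d M h t) (rm_A M φ η ε) (rm_A0 M φ)
    (fun x => k x * gradIp d M h φ η x / gradSq d M h φ x)
  set I := ∫ x, η x ^ 2 * rm_T d M h t φ k x / gradN d M h φ x ∂(wper d M h t (rm_A0 M φ))
  have hε2 : |ε| * |ε| = ε ^ 2 := by rw [← sq, sq_abs]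
  calc |-X + ε * Y - ε ^ 2 / 2 * I| = |-(X + ε ^ 2 / 2 * I) + ε * Y| := by congr 1; ring
    _ ≤ |X + ε ^ 2 / 2 * I| + |ε| * |Y| := by
        refine (abs_add_le _ _).trans ?_
        rw [abs_neg, abs_mul]
    _ ≤ C2 * ε ^ 2 * rm_m d M h t φ η ε + |ε| * (C1 * |ε| * rm_m d M h t φ η ε) :=
        add_le_add b2 (mul_le_mul_of_nonneg_left b1 (abs_nonneg _))
    _ = C2 * ε ^ 2 * rm_m d M h t φ η ε + C1 * (|ε| * |ε|) * rm_m d M h t φ η ε := by ring
    _ = _ := by rw [hε2]; ring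

/-- the measure of the layer, `η ≥ 0`. -/
theorem m_le_of_nonneg (hη : rm_Test d M η) (hη0 : ∀ x ∈ M, 0 ≤ η x) :
    ∃ C ε₁ : ℝ, 0 ≤ C ∧ 0 < ε₁ ∧ ∀ ε : ℝ, |ε| ≤ ε₁ → rm_m d M h t φ η ε ≤ C * |ε| := by
  obtain ⟨K, hK, hKM, h0⟩ := hη.cs
  obtain ⟨χ, O, hχ, h01, hO, hKO, h1⟩ := rm_exists_cutoff D.geo.mfd hK hKM
  obtain ⟨C1, hC10, hC1⟩ := D.B1 hη hχ
  obtain ⟨cb, hcb0, hcb⟩ := D.dom_b hη
  set I := ∫ x, η x * χ x / gradN d M h φ x ∂(wper d M h t (rm_A0 M φ)) with hI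
  refine ⟨2 * |I|, min (1 / (4 * (cb + 1))) (1 / (2 * (C1 + 1))), by positivity,
    lt_min (by positivity) (by positivity), fun ε hε => ?_⟩
  have hε1 : |ε| * cb ≤ 1 / 4 := by
    have e1 := hε.trans (min_le_left _ _)
    calc |ε| * cb ≤ 1 / (4 * (cb + 1)) * cb := mul_le_mul_of_nonneg_right e1 hcb0
      _ ≤ 1 / 4 := by
        rw [div_mul_eq_mul_div, div_le_div_iff₀ (by positivity) (by norm_num)]
        linarith
  have hε2 : C1 * |ε| ≤ 1 / 2 := by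
    have e1 := hε.trans (min_le_right _ _)
    calc C1 * |ε| ≤ C1 * (1 / (2 * (C1 + 1))) := mul_le_mul_of_nonneg_left e1 hC10
      _ ≤ 1 / 2 := by
        rw [mul_one_div, div_le_div_iff₀ (by positivity) (by norm_num)]
        linarith
  have hok := D.ok_of_dom hcb hε1
  have b1 := hC1 ε hok
  have hsub : rm_A M φ η ε ⊆ rm_A0 M φ ∨ rm_A0 M φ ⊆ rm_A M φ η ε := by
    rcases le_total 0 ε with hε0 | hε0
    · right
      rintro x ⟨hxM, hx⟩
      refine ⟨hxM, ?_⟩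
      show φ x - ε * η x < 0
      have := mul_nonneg hε0 (hη0 x hxM)
      linarith
    · left
      rintro x ⟨hxM, hx⟩
      refine ⟨hxM, ?_⟩
      have hx' : φ x - ε * η x < 0 := hx
      have := mul_nonpos_of_nonpos_of_nonneg hε0 (hη0 x hxM)
      linarith
  have key : |rm_L (wvol d M h t) (rm_A M φ η ε) (rm_A0 M φ) χ| = rm_m d M h t φ η ε :=
    rm_L_one (D.A_meas hη.sm ε) D.A0_meas (hχ.int_wvol D.geo) (D.layer_fin hη.cs ε)
      (fun x hx => by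
        obtain ⟨hxM, -, -, hne⟩ := rm_layer hx
        refine h1 x (hKO ?_)
        by_contra hxK
        exact hne (h0 x hxM hxK)) hsub
  have hm := rm_m_nonneg (d := d) (M := M) (h := h) (t := t) (φ := φ) (η := η) ε
  have b2 : rm_m d M h t φ η ε ≤ |ε| * |I| + C1 * |ε| * rm_m d M h t φ η ε := by
    rw [← key] at b1 ⊢
    have e1 := abs_sub_abs_le_abs_sub (rm_L (wvol d M h t) (rm_A M φ η ε) (rm_A0 M φ) χ) (ε * I)
    rw [abs_mul] at e1
    linarith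
  have b3 : C1 * |ε| * rm_m d M h t φ η ε ≤ 1 / 2 * rm_m d M h t φ η ε :=
    mul_le_mul_of_nonneg_right hε2 hm
  linarith

/-- **the measure of the layer is `O(ε)`.** -/
theorem m_le (hη : rm_Test d M η) :
    ∃ C ε₁ : ℝ, 0 ≤ C ∧ 0 < ε₁ ∧ ∀ ε : ℝ, |ε| ≤ ε₁ → rm_m d M h t φ η ε ≤ C * |ε| := by
  obtain ⟨K, hK, hKM, h0⟩ := hη.cs
  obtain ⟨χ, O, hχ, h01, hO, hKO, h1⟩ := rm_exists_cutoff D.geo.mfd hK hKM
  obtain ⟨Cη, hCη0, hCη⟩ := hη.bdd D.geo.mfd
  have hb : rm_Test d M (fun x => Cη * χ x) := hχ.smul Cη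
  have hb0 : ∀ x ∈ M, 0 ≤ Cη * χ x := fun x _ => mul_nonneg hCη0 (h01 x).1
  have hle : ∀ x ∈ M, |η x| ≤ Cη * χ x := fun x hx => by
    by_cases hxK : x ∈ K
    · rw [h1 x (hKO hxK), mul_one]
      exact hCη x hx
    · rw [h0 x hx hxK, abs_zero]
      exact hb0 x hx
  obtain ⟨C, ε₁, hC0, hε₁, hC⟩ := D.m_le_of_nonneg hb hb0
  refine ⟨2 * C, ε₁, by positivity, hε₁, fun ε hε => ?_⟩
  have hsub : symmDiff (rm_A M φ η ε) (rm_A0 M φ) ⊆
      symmDiff (rm_A M φ (fun x => Cη * χ x) |ε|) (rm_A0 M φ) ∪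
      symmDiff (rm_A M φ (fun x => Cη * χ x) (-|ε|)) (rm_A0 M φ) := by
    intro x hx
    have hl := rm_layer hx
    have h2 : |ε| * |η x| ≤ |ε| * (Cη * χ x) :=
      mul_le_mul_of_nonneg_left (hle x hl.1) (abs_nonneg _)
    rcases hx with ⟨⟨hxM, hx1⟩, hx2⟩ | ⟨⟨hxM, hx1⟩, hx2⟩
    · left; left
      refine ⟨⟨hxM, ?_⟩, hx2⟩
      show φ x - |ε| * (Cη * χ x) < 0
      have hx1' : φ x - ε * η x < 0 := hx1
      have h3 : ε * η x ≤ |ε| * |η x| := by rw [← abs_mul]; exact le_abs_self _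
      linarith
    · right; right
      refine ⟨⟨hxM, hx1⟩, fun hx3 => hx2 ⟨hxM, ?_⟩⟩
      have hx3' : φ x - -|ε| * (Cη * χ x) < 0 := hx3.2
      show φ x - ε * η x < 0
      have h3 : -(ε * η x) ≤ |ε| * |η x| := by rw [← abs_mul]; exact neg_le_abs _
      linarith
  have e1 := hC |ε| (by rwa [abs_abs])
  have e2 := hC (-|ε|) (by rwa [abs_neg, abs_abs])
  rw [abs_abs] at e1
  rw [abs_neg, abs_abs] at e2
  have f1 := D.layer_fin hb.cs |ε|
  have f2 := D.layer_fin hb.cs (-|ε|)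
  have e3 : rm_m d M h t φ η ε ≤ rm_m d M h t φ (fun x => Cη * χ x) |ε| +
      rm_m d M h t φ (fun x => Cη * χ x) (-|ε|) := by
    unfold rm_m
    rw [← ENNReal.toReal_add f1 f2]
    exact ENNReal.toReal_mono (ENNReal.add_ne_top.2 ⟨f1, f2⟩)
      ((measure_mono hsub).trans (measure_union_le _ _))
  linarith

end rm_VD

end meas

end Claimed.Agent.R315
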