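import Claimed.Agent.R315.Rm.VarB

/-!
# Row 315, SC-RIEM, stability of the wall (P Lemma B.8), part C: the second variation inequality (prefix `rm_`)

`σ_ε = ⟨ν_0, ν_ε⟩ = ⟨dφ, df_ε⟩/(|dφ| |df_ε|)`.
* `rm_sigma_real` : EXACT inequality `0 ≤ 1 - σ_ε ≤ ε² (ac - b²)/(2 (a - ε b)²)`;
* `rm_VD.cal` : calibration by `ν_0`: `∫ g σ_ε dP_ε = ∫ g dP_0 + L_ε (Div (g ∇φ/|∇φ|))`;
* `rm_VD.wmc_eq` : `Div (∇φ/|∇φ|) = wmc φ`;
* `rm_VD.star` : minimality ⇒ `0 ≤ ∫ χ (1 - σ_ε) dP_ε + L_ε (χ (wmc φ - p))`;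
* `rm_stab_ext` : `0 ≤ ∫ (|dη|² - ⟨dη,dφ⟩² + ⟨dφ, d(wmc φ - p)⟩ η²) dP` (= `ct_stab_ext` of `Ct/Var.lean`).
Owner: helper39.
-/

set_option autoImplicit false
set_option linter.unusedSectionVars false
set_option linter.unusedVariables false
open scoped ContDiff Topology ENNReal
open MeasureTheory Claims.C0499 Set

namespace Claimed.Agent.R315

/-- the exact inequality for the angle between `∇φ` and `∇(φ - ε η)`. -/
theorem rm_sigma_real {a b c ε : ℝ} (ha : 0 < a) (hcs : b ^ 2 ≤ a * c) (hX : 0 < a - ε * b) :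
    (a - ε * b) / (Real.sqrt a * Real.sqrt (a - 2 * ε * b + ε ^ 2 * c)) ≤ 1 ∧
    1 - (a - ε * b) / (Real.sqrt a * Real.sqrt (a - 2 * ε * b + ε ^ 2 * c)) ≤
      ε ^ 2 * (a * c - b ^ 2) / (2 * (a - ε * b) ^ 2) := by
  set X := a - ε * b with hXdef
  set Y := ε ^ 2 * (a * c - b ^ 2) with hYdef
  have hY : 0 ≤ Y := mul_nonneg (sq_nonneg _) (by linarith)
  have e1 : Real.sqrt a * Real.sqrt (a - 2 * ε * b + ε ^ 2 * c) = Real.sqrt (X ^ 2 + Y) := by
    rw [← Real.sqrt_mul ha.le]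
    congr 1
    rw [hXdef, hYdef]
    ring
  rw [e1]
  set s := Real.sqrt (X ^ 2 + Y) with hs
  have hs2 : s ^ 2 = X ^ 2 + Y := Real.sq_sqrt (by positivity)
  have hsX : X ≤ s := by
    rw [hs]
    exact Real.le_sqrt_of_sq_le (by linarith)
  have hs0 : 0 < s := lt_of_lt_of_le hX hsX
  refine ⟨(div_le_one hs0).2 hsX, ?_⟩
  rw [show (1 : ℝ) - X / s = (s - X) / s by field_simp, div_le_div_iff₀ hs0 (by positivity)]
  -- (s - X) * (2 X²) ≤ Y * s
  have h1 : (s - X) * (s + X) = Y := by nlinarith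
  have h2 : 0 ≤ s - X := by linarith
  nlinarith [mul_nonneg h2 hX.le, mul_nonneg h2 h2, mul_nonneg (mul_nonneg h2 hX.le) h2,
    mul_nonneg (mul_nonneg h2 hX.le) hX.le, mul_nonneg (mul_nonneg h2 h2) hs0.le]

/-- `(1 - θ)⁻² ≤ 1 + 4 θ` on `[0, 1/4]`. -/
theorem rm_theta_real {θ : ℝ} (h0 : 0 ≤ θ) (h1 : θ ≤ 1 / 4) : 1 ≤ (1 + 4 * θ) * (1 - θ) ^ 2 := by
  nlinarith [mul_nonneg h0 h0, mul_nonneg h0 (by linarith : (0 : ℝ) ≤ 1 / 4 - θ)]

variable {V : Type} [NormedAddCommGroup V] [NormedSpace ℝ V] [FiniteDimensional ℝ V]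
variable {d : ℕ} {M : Set V} {h : Ten V} {t φ η p : V → ℝ}

/-- `σ_ε = ⟨ν_0, ν_ε⟩`. -/
noncomputable def rm_sig (d : ℕ) (M : Set V) (h : Ten V) (φ η : V → ℝ) (ε : ℝ) (x : V) : ℝ :=
  gradIp d M h φ (rm_f φ η ε) x / (gradN d M h φ x * gradN d M h (rm_f φ η ε) x)

/-- `g = (a c - b²)/(2 a²)`. -/
noncomputable def rm_g (d : ℕ) (M : Set V) (h : Ten V) (φ η : V → ℝ) (x : V) : ℝ :=
  (gradSq d M h φ x * gradSq d M h η x - gradIp d M h φ η x ^ 2) / (2 * gradSq d M h φ x ^ 2)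

namespace rm_VD

variable (D : rm_VD d M h t φ)
include D

theorem sig_sm (hη : SmoothAlong d M η) {ε : ℝ} (hok : rm_Ok d M h φ η ε) :
    SmoothAlong d M (rm_sig d M h φ η ε) :=
  gs_sm_div (if_gradIp_smoothAlong D.geo.met D.sm (D.f_sm hη ε))
    (gs_sm_mul D.N_sm (D.f_VD hη hok).N_sm)
    fun x hx => mul_ne_zero (D.N_ne x hx) ((D.f_VD hη hok).N_ne x hx)

theorem g_test (hη : rm_Test d M η) : rm_Test d M (rm_g d M h φ η) := by
  have h1 : rm_Test d M (fun x => gradSq d M h φ x * gradSq d M h η x +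
      (-1) * (gradIp d M h φ η x * gradIp d M h φ η x)) :=
    ((hη.sq D.geo.mfd D.geo.met).mul_left D.a_sm).add
      (((hη.ip_right D.geo.mfd D.geo.met D.sm).mul_left
        (if_gradIp_smoothAlong D.geo.met D.sm hη.sm)).smul (-1))
  refine (h1.div (gs_sm_smul 2 (gs_sm_pow D.a_sm 2)) fun x hx => ?_).congr fun x hx => ?_
  · have := D.reg x hx
    positivity
  · unfold rm_g
    congr 1
    ring

theorem g_nonneg (hη : SmoothAlong d M η) : ∀ x ∈ M, 0 ≤ rm_g d M h φ η x := fun x hx => by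
  have h1 := gs_ip_cs D.geo.mfd D.geo.met D.sm hη hx
  have h2 := D.reg x hx
  unfold rm_g
  exact div_nonneg (by linarith) (by positivity)

theorem X_ge {cb ε : ℝ} (hcb : ∀ x ∈ M, |gradIp d M h φ η x| ≤ cb * gradSq d M h φ x) {x : V}
    (hx : x ∈ M) : (1 - cb * |ε|) * gradSq d M h φ x ≤
      gradSq d M h φ x - ε * gradIp d M h φ η x := by
  have h1 : ε * gradIp d M h φ η x ≤ |ε| * (cb * gradSq d M h φ x) :=
    (le_abs_self _).trans (by rw [abs_mul]; exact mul_le_mul_of_nonneg_left (hcb x hx) (abs_nonneg _))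
  linarith

theorem sig_bounds (hη : SmoothAlong d M η) {cb ε : ℝ} (hcb0 : 0 ≤ cb)
    (hcb : ∀ x ∈ M, |gradIp d M h φ η x| ≤ cb * gradSq d M h φ x) (hε : |ε| * cb ≤ 1 / 4) {x : V}
    (hx : x ∈ M) : rm_sig d M h φ η ε x ≤ 1 ∧
      1 - rm_sig d M h φ η ε x ≤ ε ^ 2 * (1 + 4 * (cb * |ε|)) * rm_g d M h φ η x := by
  have ha := D.reg x hx
  have hcs := gs_ip_cs D.geo.mfd D.geo.met D.sm hη hx
  have hX1 := D.X_ge (ε := ε) hcb hx
  have hθ0 : 0 ≤ cb * |ε| := mul_nonneg hcb0 (abs_nonneg _)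
  have hθ1 : cb * |ε| ≤ 1 / 4 := by rwa [mul_comm]
  have hX : 0 < gradSq d M h φ x - ε * gradIp d M h φ η x :=
    lt_of_lt_of_le (mul_pos (by linarith) ha) hX1
  obtain ⟨h1, h2⟩ := rm_sigma_real (ε := ε) ha hcs hX
  have e : rm_sig d M h φ η ε x = (gradSq d M h φ x - ε * gradIp d M h φ η x) /
      (Real.sqrt (gradSq d M h φ x) * Real.sqrt (gradSq d M h φ x - 2 * ε * gradIp d M h φ η x +
        ε ^ 2 * gradSq d M h η x)) := by
    unfold rm_sig gradN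
    rw [D.ip_f hη ε hx, D.sq_f hη ε hx]
  rw [e]
  refine ⟨h1, h2.trans ?_⟩
  unfold rm_g
  generalize gradSq d M h φ x = a at *
  generalize gradSq d M h η x = c at *
  generalize gradIp d M h φ η x = b at *
  generalize cb * |ε| = θ at *
  have hW : 0 ≤ a * c - b ^ 2 := by linarith
  have h3 := rm_theta_real hθ0 hθ1
  have h4 : a ^ 2 ≤ (1 + 4 * θ) * (a - ε * b) ^ 2 := by
    have h5 : ((1 - θ) * a) ^ 2 ≤ (a - ε * b) ^ 2 :=
      pow_le_pow_left₀ (mul_nonneg (by linarith) ha.le) hX1 2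
    calc a ^ 2 = 1 * a ^ 2 := (one_mul _).symm
      _ ≤ (1 + 4 * θ) * (1 - θ) ^ 2 * a ^ 2 := mul_le_mul_of_nonneg_right h3 (by positivity)
      _ = (1 + 4 * θ) * ((1 - θ) * a) ^ 2 := by ring
      _ ≤ _ := mul_le_mul_of_nonneg_left h5 (by linarith)
  rw [show ε ^ 2 * (1 + 4 * θ) * ((a * c - b ^ 2) / (2 * a ^ 2)) =
    ε ^ 2 * (a * c - b ^ 2) * (1 + 4 * θ) / (2 * a ^ 2) by ring,
    div_le_div_iff₀ (by positivity) (by positivity)]
  have h6 : 0 ≤ ε ^ 2 * (a * c - b ^ 2) := mul_nonneg (sq_nonneg _) hW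
  nlinarith [mul_le_mul_of_nonneg_left h4 h6]

theorem ip_N {x : V} (hx : x ∈ M) :
    gradIp d M h (gradN d M h φ) φ x = gradIp d M h (gradSq d M h φ) φ x / (2 * gradN d M h φ x) := by
  have h1 := gs_ip_mul_left D.geo.mfd D.geo.met D.N_sm D.N_sm D.sm hx
  have h2 : gradIp d M h (fun y => gradN d M h φ y * gradN d M h φ y) φ x =
      gradIp d M h (gradSq d M h φ) φ x :=
    gs_ip_congr (fun y hy => by rw [← D.N_sq hy]; ring) fun _ _ => rfl
  have h3 := D.N_pos x hx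
  rw [h2] at h1
  rw [h1]
  field_simp
  ring

theorem Ninv_sm : SmoothAlong d M (fun y => (gradN d M h φ y)⁻¹) := gs_sm_inv D.N_sm D.N_ne

theorem ip_Ninv {x : V} (hx : x ∈ M) :
    gradIp d M h (fun y => (gradN d M h φ y)⁻¹) φ x =
      - gradIp d M h (gradSq d M h φ) φ x / (2 * gradN d M h φ x ^ 3) := by
  have h1 := gs_ip_mul_left D.geo.mfd D.geo.met D.N_sm D.Ninv_sm D.sm hx
  have h2 : gradIp d M h (fun y => gradN d M h φ y * (gradN d M h φ y)⁻¹) φ x = 0 := by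
    rw [gs_ip_congr (f' := fun _ => (1 : ℝ)) (k' := φ)
      (fun y hy => mul_inv_cancel₀ (D.N_ne y hy)) fun _ _ => rfl]
    exact gs_ip_const_left D.geo.mfd D.geo.met 1 D.sm hx
  have h3 := D.N_pos x hx
  rw [h2, D.ip_N hx] at h1
  have h4 : gradIp d M h (fun y => (gradN d M h φ y)⁻¹) φ x =
      - ((gradN d M h φ x)⁻¹ * (gradIp d M h (gradSq d M h φ) φ x / (2 * gradN d M h φ x))) /
        gradN d M h φ x := by
    field_simp
    field_simp at h1
    linarith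
  rw [h4]
  field_simp

/-- `Div (∇φ/|∇φ|) = wmc φ`. -/
theorem wmc_eq {x : V} (hx : x ∈ M) :
    wdiv d M h t (fun y => (gradN d M h φ y)⁻¹) φ x = wmc d M h t φ x := by
  unfold wdiv wmc
  rw [D.ip_Ninv hx, gs_ip_comm D.geo.mfd D.geo.met D.a_sm D.sm hx]
  ring

theorem wmc_sm : SmoothAlong d M (wmc d M h t φ) :=
  gs_sm_congr (rm_wdiv_sm D.geo.met D.geo.drift D.Ninv_sm D.sm) fun x hx => (D.wmc_eq hx).symm

end rm_VD

section meas

variable [MeasurableSpace V] [BorelSpace V]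

namespace rm_VD

variable (D : rm_VD d M h t φ)
include D

/-- **calibration by `ν_0`.** -/
theorem cal (hη : SmoothAlong d M η) {ε : ℝ} (hok : rm_Ok d M h φ η ε) {g : V → ℝ}
    (hg : rm_Test d M g) :
    ∫ x, g x * rm_sig d M h φ η ε x ∂(wper d M h t (rm_A M φ η ε)) =
      ∫ x, g x ∂(wper d M h t (rm_A0 M φ)) +
      rm_L (wvol d M h t) (rm_A M φ η ε) (rm_A0 M φ)
        (wdiv d M h t (fun x => g x / gradN d M h φ x) φ) := by
  have h1 := D.gg_diff hη hok (hg.div D.N_sm D.N_ne)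
  have h2 : ∫ x, g x / gradN d M h φ x * gradIp d M h φ (rm_f φ η ε) x /
      gradN d M h (rm_f φ η ε) x ∂(wper d M h t (rm_A M φ η ε)) =
      ∫ x, g x * rm_sig d M h φ η ε x ∂(wper d M h t (rm_A M φ η ε)) := by
    refine integral_congr_ae (Filter.Eventually.of_forall fun x => ?_)
    show _ = g x * rm_sig d M h φ η ε x
    unfold rm_sig
    ring
  have h3 : ∫ x, g x / gradN d M h φ x * gradN d M h φ x ∂(wper d M h t (rm_A0 M φ)) =
      ∫ x, g x ∂(wper d M h t (rm_A0 M φ)) := by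
    refine integral_congr_ae ?_
    filter_upwards [D.ae_P0] with x hx
    exact div_mul_cancel₀ _ (D.N_ne x hx.1)
  rw [h2, h3] at h1
  linarith

theorem layer_sub {K : Set V} (h0 : ∀ x ∈ M, x ∉ K → η x = 0) (ε : ℝ) :
    symmDiff (rm_A M φ η ε) (rm_A0 M φ) ⊆ K := fun x hx => by
  obtain ⟨hxM, -, -, hne⟩ := rm_layer hx
  by_contra hxK
  exact hne (h0 x hxM hxK)

/-- **minimality** in calibrated form. -/
theorem star (hp : SmoothAlong d M p) (hA : CtLAM d M h t p (rm_A0 M φ)) (hη : rm_Test d M η)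
    {K : Set V} (hK : IsCompact K) (hKM : K ⊆ M) (h0 : ∀ x ∈ M, x ∉ K → η x = 0) {χ : V → ℝ}
    {O : Set V} (hχ : rm_Test d M χ) (hO : IsOpen O) (hKO : K ⊆ O) (h1 : ∀ x ∈ O, χ x = 1) {ε : ℝ}
    (hok : rm_Ok d M h φ η ε) :
    0 ≤ ∫ x, χ x * (1 - rm_sig d M h φ η ε x) ∂(wper d M h t (rm_A M φ η ε)) +
      rm_L (wvol d M h t) (rm_A M φ η ε) (rm_A0 M φ)
        (fun x => χ x * (wmc d M h t φ x - p x)) := by
  have hlay := D.layer_sub h0 ε
  have hAm := D.A_meas hη.sm ε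
  have hA0m := D.A0_meas
  have hlf := D.A_lf hη.sm hok
  have hmin := hA.min K (rm_A M φ η ε) hK hKM hlf (by rw [symmDiff_comm]; exact hlay)
  unfold ctEn at hmin
  -- the perimeter terms
  have k1 : ∀ B : Set V, CtLF d M h t B → ∫ x, χ x ∂(wper d M h t B) =
      (wper d M h t B K).toReal + ∫ x in Kᶜ, χ x ∂(wper d M h t B) := by
    intro B hB
    rw [← integral_add_compl hK.measurableSet (hχ.int_wper D.geo hB)]
    congr 1
    rw [setIntegral_congr_fun hK.measurableSet (g := fun _ => (1 : ℝ)) fun x hx => h1 x (hKO hx)]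
    simp [Measure.real]
  have k2 : (wper d M h t (rm_A M φ η ε)).restrict Kᶜ = (wper d M h t (rm_A0 M φ)).restrict Kᶜ := by
    refine ct_wper_congr D.geo hAm hA0m hK.isClosed.isOpen_compl ?_
    have : symmDiff (rm_A M φ η ε) (rm_A0 M φ) ∩ Kᶜ = ∅ := by
      ext x
      simp only [mem_inter_iff, mem_compl_iff, mem_empty_iff_false, iff_false, not_and, not_not]
      exact fun hx => hlay hx
    rw [this, measure_empty]
  have k12 : ∫ x, χ x ∂(wper d M h t (rm_A M φ η ε)) - ∫ x, χ x ∂(wper d M h t (rm_A0 M φ)) =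
      (wper d M h t (rm_A M φ η ε) K).toReal - (wper d M h t (rm_A0 M φ) K).toReal := by
    rw [k1 _ hlf, k1 _ D.A0_lf, k2]
    ring
  -- the pressure terms
  have ip : Integrable (fun x => χ x * p x) (wvol d M h t) := (hχ.mul_right hp).int_wvol D.geo
  have k3 : ∫ x in rm_A M φ η ε ∩ K, p x ∂(wvol d M h t) -
      ∫ x in rm_A0 M φ ∩ K, p x ∂(wvol d M h t) =
      rm_L (wvol d M h t) (rm_A M φ η ε) (rm_A0 M φ) (fun x => χ x * p x) := by
    have e1 : ∀ B : Set V, MeasurableSet B → ∫ x in B ∩ K, p x ∂(wvol d M h t) =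
        ∫ x in B ∩ K, χ x * p x ∂(wvol d M h t) := fun B hB =>
      setIntegral_congr_fun (hB.inter hK.measurableSet) fun x hx => by
        show p x = χ x * p x
        rw [h1 x (hKO hx.2), one_mul]
    rw [e1 _ hAm, e1 _ hA0m]
    have e2 := rm_L_eq_diff (hAm.inter hK.measurableSet) (hA0m.inter hK.measurableSet) ip
    unfold rm_L at e2
    rw [e2, rm_L_eq_diff hAm hA0m ip]
    have s1 : (rm_A M φ η ε ∩ K) \ (rm_A0 M φ ∩ K) = rm_A M φ η ε \ rm_A0 M φ := by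
      ext x
      constructor
      · rintro ⟨⟨hx1, hx2⟩, hx3⟩
        exact ⟨hx1, fun hx4 => hx3 ⟨hx4, hx2⟩⟩
      · rintro ⟨hx1, hx2⟩
        exact ⟨⟨hx1, hlay (Or.inl ⟨hx1, hx2⟩)⟩, fun hx3 => hx2 hx3.1⟩
    have s2 : (rm_A0 M φ ∩ K) \ (rm_A M φ η ε ∩ K) = rm_A0 M φ \ rm_A M φ η ε := by
      ext x
      constructor
      · rintro ⟨⟨hx1, hx2⟩, hx3⟩
        exact ⟨hx1, fun hx4 => hx3 ⟨hx4, hx2⟩⟩
      · rintro ⟨hx1, hx2⟩
        exact ⟨⟨hx1, hlay (Or.inr ⟨hx1, hx2⟩)⟩, fun hx3 => hx2 hx3.1⟩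
    rw [s1, s2]
  -- calibration
  have c1 := D.cal hη.sm hok hχ
  have iw : Integrable (fun x => χ x * wmc d M h t φ x) (wvol d M h t) :=
    (hχ.mul_right D.wmc_sm).int_wvol D.geo
  have w1 : rm_L (wvol d M h t) (rm_A M φ η ε) (rm_A0 M φ)
      (wdiv d M h t (fun x => χ x / gradN d M h φ x) φ) =
      rm_L (wvol d M h t) (rm_A M φ η ε) (rm_A0 M φ) (fun x => χ x * wmc d M h t φ x) := by
    refine rm_L_congr hAm hA0m
      (((hχ.div D.N_sm D.N_ne).wdiv D.geo.mfd D.geo.met D.geo.drift D.sm).int_wvol D.geo) iw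
      fun x hx => ?_
    have hxM := (rm_layer hx).1
    have hxO := hKO (hlay hx)
    have e1 : wdiv d M h t (fun x => χ x / gradN d M h φ x) φ x =
        wdiv d M h t (fun x => χ x * (gradN d M h φ x)⁻¹) φ x := by
      simp only [div_eq_mul_inv]
    rw [e1, rm_wdiv_mul D.geo.mfd D.geo.met hχ.sm D.Ninv_sm D.sm hxM, D.wmc_eq hxM,
      rm_ip_one_left D.geo.mfd D.geo.met D.sm hO h1 hxM hxO, mul_zero, add_zero]
  have i1 : Integrable χ (wper d M h t (rm_A M φ η ε)) := hχ.int_wper D.geo hlf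
  have i2 : Integrable (fun x => χ x * rm_sig d M h φ η ε x) (wper d M h t (rm_A M φ η ε)) :=
    (hχ.mul_right (D.sig_sm hη.sm hok)).int_wper D.geo hlf
  have f1 : ∫ x, χ x * (1 - rm_sig d M h φ η ε x) ∂(wper d M h t (rm_A M φ η ε)) =
      ∫ x, χ x ∂(wper d M h t (rm_A M φ η ε)) -
      ∫ x, χ x * rm_sig d M h φ η ε x ∂(wper d M h t (rm_A M φ η ε)) := by
    rw [← integral_sub i1 i2]
    refine integral_congr_ae (Filter.Eventually.of_forall fun x => ?_)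
    show χ x * (1 - rm_sig d M h φ η ε x) = χ x - χ x * rm_sig d M h φ η ε x
    ring
  have f2 : rm_L (wvol d M h t) (rm_A M φ η ε) (rm_A0 M φ)
      (fun x => χ x * (wmc d M h t φ x - p x)) =
      rm_L (wvol d M h t) (rm_A M φ η ε) (rm_A0 M φ) (fun x => χ x * wmc d M h t φ x) -
      rm_L (wvol d M h t) (rm_A M φ η ε) (rm_A0 M φ) (fun x => χ x * p x) := by
    rw [← rm_L_sub iw ip]
    congr 1
    funext x
    ring
  rw [f1, f2, c1, w1, ← k3]
  linarith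

/-- the perimeter term is `≤ ε² (∫ g dP_0 + C |ε|)`. -/
theorem per_le (hη : rm_Test d M η) {χ : V → ℝ} (hχ : rm_Test d M χ)
    (h01 : ∀ x, 0 ≤ χ x ∧ χ x ≤ 1) :
    ∃ C ε₁ : ℝ, 0 ≤ C ∧ 0 < ε₁ ∧ ∀ ε : ℝ, |ε| ≤ ε₁ → rm_Ok d M h φ η ε ∧
      ∫ x, χ x * (1 - rm_sig d M h φ η ε x) ∂(wper d M h t (rm_A M φ η ε)) ≤
        ε ^ 2 * (∫ x, rm_g d M h φ η x ∂(wper d M h t (rm_A0 M φ)) + C * |ε|) := by
  obtain ⟨cb, hcb0, hcb⟩ := D.dom_b hη
  have hg := D.g_test hη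
  have hg0 := D.g_nonneg hη.sm
  obtain ⟨Gm, hGm0, hGm⟩ := hg.bdd D.geo.mfd
  have hw := (hg.div D.N_sm D.N_ne).wdiv D.geo.mfd D.geo.met D.geo.drift D.sm
  obtain ⟨Cw, hCw0, hCw⟩ := hw.bdd D.geo.mfd
  obtain ⟨Cm, εm, hCm0, hεm, hCm⟩ := D.m_le hη
  set G₀ := ∫ x, rm_g d M h φ η x ∂(wper d M h t (rm_A0 M φ)) with hG₀
  have hG₀0 : 0 ≤ G₀ := by
    refine integral_nonneg_of_ae ?_
    filter_upwards [D.ae_P0] with x hx
    exact hg0 x hx.1
  set Jb := 2 * (G₀ + Cw * Cm) with hJb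
  have hJb0 : 0 ≤ Jb := by positivity
  refine ⟨Cw * Cm + 2 * Gm * Jb + 4 * cb * Jb,
    min εm (min 1 (min (1 / (4 * (cb + 1))) (1 / (4 * (Gm + 1))))), by positivity,
    lt_min hεm (lt_min one_pos (lt_min (by positivity) (by positivity))), fun ε hε => ?_⟩
  have hε_m : |ε| ≤ εm := hε.trans (min_le_left _ _)
  have hε' := hε.trans (min_le_right _ _)
  have hε_1 : |ε| ≤ 1 := hε'.trans (min_le_left _ _)
  have hε'' := hε'.trans (min_le_right _ _)
  have hε1 : |ε| * cb ≤ 1 / 4 := by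
    have e1 := hε''.trans (min_le_left _ _)
    calc |ε| * cb ≤ 1 / (4 * (cb + 1)) * cb := mul_le_mul_of_nonneg_right e1 hcb0
      _ ≤ 1 / 4 := by
        rw [div_mul_eq_mul_div, div_le_div_iff₀ (by positivity) (by norm_num)]
        linarith
  have hε2 : Gm * |ε| ≤ 1 / 4 := by
    have e1 := hε''.trans (min_le_right _ _)
    calc Gm * |ε| ≤ Gm * (1 / (4 * (Gm + 1))) := mul_le_mul_of_nonneg_left e1 hGm0
      _ ≤ 1 / 4 := by
        rw [mul_one_div, div_le_div_iff₀ (by positivity) (by norm_num)]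
        linarith
  have hsq : ε ^ 2 ≤ |ε| := by
    rw [← sq_abs]
    nlinarith [abs_nonneg ε]
  have hok := D.ok_of_dom hcb hε1
  refine ⟨hok, ?_⟩
  have hlf := D.A_lf hη.sm hok
  have hsig := D.sig_sm hη.sm hok
  have hae := (D.f_VD hη.sm hok).ae_P0
  have hθ0 : 0 ≤ cb * |ε| := mul_nonneg hcb0 (abs_nonneg _)
  have hθ1 : cb * |ε| ≤ 1 / 4 := by rwa [mul_comm]
  set J := ∫ x, rm_g d M h φ η x ∂(wper d M h t (rm_A M φ η ε)) with hJ
  have ig : Integrable (rm_g d M h φ η) (wper d M h t (rm_A M φ η ε)) := hg.int_wper D.geo hlf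
  have igs : Integrable (fun x => rm_g d M h φ η x * rm_sig d M h φ η ε x)
      (wper d M h t (rm_A M φ η ε)) := (hg.mul_right hsig).int_wper D.geo hlf
  have hJ0 : 0 ≤ J := by
    refine integral_nonneg_of_ae ?_
    filter_upwards [hae] with x hx
    exact hg0 x hx.1
  -- (a)
  have ha : ∫ x, rm_g d M h φ η x * rm_sig d M h φ η ε x ∂(wper d M h t (rm_A M φ η ε)) ≤
      G₀ + Cw * Cm * |ε| := by
    rw [D.cal hη.sm hok hg]
    have e1 := D.L_le hη ε (hw.int_wvol D.geo) (C := Cw) fun x hx => hCw x (rm_layer hx).1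
    have e2 := (le_abs_self _).trans e1
    have e3 : Cw * rm_m d M h t φ η ε ≤ Cw * (Cm * |ε|) :=
      mul_le_mul_of_nonneg_left (hCm ε hε_m) hCw0
    linarith
  -- (b)
  have hb : J - ∫ x, rm_g d M h φ η x * rm_sig d M h φ η ε x ∂(wper d M h t (rm_A M φ η ε)) ≤
      2 * Gm * ε ^ 2 * J := by
    rw [hJ, ← integral_sub ig igs, ← integral_const_mul]
    refine integral_mono_ae (ig.sub igs) (ig.const_mul _) ?_
    filter_upwards [hae] with x hx
    have e1 := (D.sig_bounds hη.sm hcb0 hcb hε1 hx.1).2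
    have e2 := hg0 x hx.1
    have e3 := (abs_le.1 (hGm x hx.1)).2
    show rm_g d M h φ η x - rm_g d M h φ η x * rm_sig d M h φ η ε x ≤
      2 * Gm * ε ^ 2 * rm_g d M h φ η x
    have e4 : ε ^ 2 * (1 + 4 * (cb * |ε|)) * rm_g d M h φ η x ≤ ε ^ 2 * 2 * Gm :=
      mul_le_mul (mul_le_mul_of_nonneg_left (by linarith) (sq_nonneg _)) e3 e2 (by positivity)
    nlinarith [mul_le_mul_of_nonneg_left (e1.trans e4) e2]
  -- (c)
  have hc1 : 2 * Gm * ε ^ 2 ≤ 1 / 2 := by nlinarith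
  have hc2 : J ≤ Jb := by
    have e1 : 2 * Gm * ε ^ 2 * J ≤ 1 / 2 * J := mul_le_mul_of_nonneg_right hc1 hJ0
    have e2 : Cw * Cm * |ε| ≤ Cw * Cm := by
      have : 0 ≤ Cw * Cm := by positivity
      nlinarith
    rw [hJb]
    linarith
  have hc3 : J ≤ G₀ + Cw * Cm * |ε| + 2 * Gm * |ε| * Jb := by
    have e1 : 2 * Gm * ε ^ 2 * J ≤ 2 * Gm * |ε| * Jb :=
      mul_le_mul (mul_le_mul_of_nonneg_left hsq (by positivity)) hc2 hJ0 (by positivity)
    linarith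
  -- (d)
  have hd : ∫ x, χ x * (1 - rm_sig d M h φ η ε x) ∂(wper d M h t (rm_A M φ η ε)) ≤
      ε ^ 2 * (1 + 4 * (cb * |ε|)) * J := by
    rw [hJ, ← integral_const_mul]
    refine integral_mono_ae ?_ (ig.const_mul _) ?_
    · exact (hχ.mul_right (gs_sm_sub (gs_sm_const 1) hsig)).int_wper D.geo hlf
    · filter_upwards [hae] with x hx
      obtain ⟨e0, e1⟩ := D.sig_bounds hη.sm hcb0 hcb hε1 hx.1
      show χ x * (1 - rm_sig d M h φ η ε x) ≤ _
      calc χ x * (1 - rm_sig d M h φ η ε x) ≤ 1 * (1 - rm_sig d M h φ η ε x) :=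
            mul_le_mul_of_nonneg_right (h01 x).2 (by linarith)
        _ ≤ _ := by rw [one_mul]; exact e1
  refine hd.trans ?_
  rw [mul_assoc]
  refine mul_le_mul_of_nonneg_left ?_ (sq_nonneg _)
  have e5 : 4 * (cb * |ε|) * J ≤ 4 * (cb * |ε|) * Jb :=
    mul_le_mul_of_nonneg_left hc2 (by positivity)
  nlinarith

/-- the second variation inequality, raw form. -/
theorem stab1 (hp : SmoothAlong d M p) (hA : CtLAM d M h t p (rm_A0 M φ)) (hη : rm_Test d M η)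
    {K : Set V} (hK : IsCompact K) (hKM : K ⊆ M) (h0 : ∀ x ∈ M, x ∉ K → η x = 0) {χ : V → ℝ}
    {O : Set V} (hχ : rm_Test d M χ) (h01 : ∀ x, 0 ≤ χ x ∧ χ x ≤ 1) (hO : IsOpen O) (hKO : K ⊆ O)
    (h1 : ∀ x ∈ O, χ x = 1) :
    0 ≤ ∫ x, rm_g d M h φ η x ∂(wper d M h t (rm_A0 M φ)) +
      1 / 2 * ∫ x, η x ^ 2 * rm_T d M h t φ (fun x => χ x * (wmc d M h t φ x - p x)) x /
        gradN d M h φ x ∂(wper d M h t (rm_A0 M φ)) := by
  have hk : rm_Test d M (fun x => χ x * (wmc d M h t φ x - p x)) :=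
    hχ.mul_right (gs_sm_sub D.wmc_sm hp)
  have hk0 : ∀ x ∈ M, φ x = 0 → χ x * (wmc d M h t φ x - p x) = 0 := fun x hx hx0 => by
    rw [CtLAM.el D.geo hp hA D.A0_def hx hx0, sub_self, mul_zero]
  obtain ⟨C1, ε₁, hC10, hε₁, hC1⟩ := D.per_le hη hχ h01
  obtain ⟨C3, hC30, hC3⟩ := D.B3 hη hk hk0
  obtain ⟨Cm, εm, hCm0, hεm, hCm⟩ := D.m_le hη
  set G₀ := ∫ x, rm_g d M h φ η x ∂(wper d M h t (rm_A0 M φ))
  set Q := ∫ x, η x ^ 2 * rm_T d M h t φ (fun x => χ x * (wmc d M h t φ x - p x)) x /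
        gradN d M h φ x ∂(wper d M h t (rm_A0 M φ))
  by_contra hneg
  have hS : G₀ + 1 / 2 * Q < 0 := not_le.1 hneg
  set S := G₀ + 1 / 2 * Q with hSdef
  set CC := C1 + C3 * Cm with hCC
  have hCC0 : 0 ≤ CC := by positivity
  set ε := min ε₁ (min εm (-S / (2 * (CC + 1)))) with hεdef
  have hεpos : 0 < ε := lt_min hε₁ (lt_min hεm (div_pos (by linarith) (by positivity)))
  have habs : |ε| = ε := abs_of_pos hεpos
  have e1 : |ε| ≤ ε₁ := by rw [habs]; exact min_le_left _ _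
  have e2 : |ε| ≤ εm := by rw [habs]; exact (min_le_right _ _).trans (min_le_left _ _)
  have e3 : ε ≤ -S / (2 * (CC + 1)) := (min_le_right _ _).trans (min_le_right _ _)
  obtain ⟨hok, hper⟩ := hC1 ε e1
  have hst := D.star hp hA hη hK hKM h0 hχ hO hKO h1 hok
  have hb3 := (abs_le.1 (hC3 ε hok)).2
  have hm := hCm ε e2
  rw [habs] at hper hm
  have hm' : C3 * ε ^ 2 * rm_m d M h t φ η ε ≤ C3 * ε ^ 2 * (Cm * ε) :=
    mul_le_mul_of_nonneg_left hm (by positivity)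
  have h5 : CC * ε ≤ -S / 2 := by
    calc CC * ε ≤ CC * (-S / (2 * (CC + 1))) := mul_le_mul_of_nonneg_left e3 hCC0
      _ = (CC / (CC + 1)) * (-S / 2) := by field_simp
      _ ≤ 1 * (-S / 2) := by
        refine mul_le_mul_of_nonneg_right ?_ (by linarith)
        rw [div_le_one (by positivity)]
        linarith
      _ = _ := one_mul _
  have h6 : 0 ≤ ε ^ 2 * (S + CC * ε) := by
    have : ε ^ 2 * (S + CC * ε) = ε ^ 2 * (G₀ + C1 * ε) + (ε ^ 2 / 2 * Q + C3 * ε ^ 2 * (Cm * ε)) := by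
      rw [hSdef, hCC]; ring
    rw [this]
    linarith
  have h7 : S + CC * ε < 0 := by linarith
  have h8 : ε ^ 2 * (S + CC * ε) < 0 := mul_neg_of_pos_of_neg (by positivity) h7
  linarith

end rm_VD

/-- **stability, extrinsic scalar form** (statement `ct_stab_ext` of `Ct/Var.lean`): `A = {φ < 0}` a minimiser in `M`,
`|dφ| = 1` on `{φ = 0}`: `0 ≤ ∫ (|dη|² - ⟨dη, dφ⟩² + ⟨dφ, d(H_t[φ] - p)⟩ η²) dP`. -/
theorem rm_stab_ext (hG : CtGeo d M h t) (hp : SmoothAlong d M p) {A : Set V}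
    (hA : CtLAM d M h t p A) {φ : V → ℝ} (hφ : CtDef d M h A φ)
    (hn : ∀ x ∈ M, φ x = 0 → gradSq d M h φ x = 1) {η : V → ℝ} (hη : SmoothAlong d M η)
    (hc : CtCS M η) :
    0 ≤ ∫ x, (gradSq d M h η x - gradIp d M h η φ x ^ 2 +
      (gradIp d M h φ (wmc d M h t φ) x - gradIp d M h φ p x) * η x ^ 2) ∂(wper d M h t A) := by
  have D : rm_VD d M h t φ := ⟨hG, hφ.smooth, hφ.reg⟩
  have hT : rm_Test d M η := ⟨hη, hc⟩
  have hA0 : CtLAM d M h t p (rm_A0 M φ) := hA.congr hG D.A0_meas (fun _ hx => hx.1) hφ.eq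
  have hP : wper d M h t A = wper d M h t (rm_A0 M φ) := by
    have := ct_wper_congr hG hA.lf.meas D.A0_meas isOpen_univ (by rw [inter_univ]; exact hφ.eq)
    rwa [Measure.restrict_univ, Measure.restrict_univ] at this
  obtain ⟨K, hK, hKM, h0⟩ := hc
  obtain ⟨χ, O, hχ, h01, hO, hKO, h1⟩ := rm_exists_cutoff hG.mfd hK hKM
  have key := D.stab1 hp hA0 hT hK hKM h0 hχ h01 hO hKO h1
  have hΨ : SmoothAlong d M (fun x => wmc d M h t φ x - p x) := gs_sm_sub D.wmc_sm hp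
  have hk : rm_Test d M (fun x => χ x * (wmc d M h t φ x - p x)) := hχ.mul_right hΨ
  have i1 : Integrable (rm_g d M h φ η) (wper d M h t (rm_A0 M φ)) :=
    (D.g_test hT).int_wper hG D.A0_lf
  have i2 : Integrable (fun x => η x ^ 2 * rm_T d M h t φ
      (fun x => χ x * (wmc d M h t φ x - p x)) x / gradN d M h φ x) (wper d M h t (rm_A0 M φ)) :=
    (((D.T_test hk).mul_left (gs_sm_pow hη 2)).div D.N_sm D.N_ne).int_wper hG D.A0_lf
  rw [← integral_const_mul, ← integral_add i1 (i2.const_mul _)] at key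
  rw [hP]
  have e : ∫ x, (gradSq d M h η x - gradIp d M h η φ x ^ 2 +
      (gradIp d M h φ (wmc d M h t φ) x - gradIp d M h φ p x) * η x ^ 2)
        ∂(wper d M h t (rm_A0 M φ)) =
      2 * ∫ x, (rm_g d M h φ η x + 1 / 2 * (η x ^ 2 * rm_T d M h t φ
        (fun x => χ x * (wmc d M h t φ x - p x)) x / gradN d M h φ x))
        ∂(wper d M h t (rm_A0 M φ)) := by
    rw [← integral_const_mul]
    refine integral_congr_ae ?_
    filter_upwards [D.ae_P0] with x hx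
    obtain ⟨hxM, hx0⟩ := hx
    have ha : gradSq d M h φ x = 1 := hn x hxM hx0
    have hN : gradN d M h φ x = 1 := by unfold gradN; rw [ha, Real.sqrt_one]
    have hΨ0 : wmc d M h t φ x - p x = 0 := by
      rw [CtLAM.el hG hp hA0 D.A0_def hxM hx0, sub_self]
    have hainv : SmoothAlong d M (fun y => (gradSq d M h φ y)⁻¹) := gs_sm_inv D.a_sm D.a_ne
    have eT : rm_T d M h t φ (fun x => χ x * (wmc d M h t φ x - p x)) x =
        χ x * (gradIp d M h φ (wmc d M h t φ) x - gradIp d M h φ p x) := by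
      unfold rm_T wdiv
      have e1 : gradIp d M h (fun x => χ x * (wmc d M h t φ x - p x) / gradSq d M h φ x) φ x =
          gradIp d M h (fun x => (χ x * (wmc d M h t φ x - p x)) * (gradSq d M h φ x)⁻¹) φ x := by
        simp only [div_eq_mul_inv]
      rw [e1, gs_ip_mul_left hG.mfd hG.met hk.sm hainv D.sm hxM,
        gs_ip_mul_left hG.mfd hG.met hχ.sm hΨ D.sm hxM,
        gs_ip_sub_left hG.mfd hG.met D.wmc_sm hp D.sm hxM,
        gs_ip_comm hG.mfd hG.met D.wmc_sm D.sm hxM, gs_ip_comm hG.mfd hG.met hp D.sm hxM]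
      simp only [hΨ0, ha]
      ring
    have eχ : η x ^ 2 * χ x = η x ^ 2 := by
      by_cases hxK : x ∈ K
      · rw [h1 x (hKO hxK), mul_one]
      · rw [h0 x hxM hxK]; ring
    rw [eT, hN]
    unfold rm_g
    rw [ha, gs_ip_comm hG.mfd hG.met hη D.sm hxM]
    have : η x ^ 2 * (χ x * (gradIp d M h φ (wmc d M h t φ) x - gradIp d M h φ p x)) =
        (η x ^ 2 * χ x) * (gradIp d M h φ (wmc d M h t φ) x - gradIp d M h φ p x) := by ring
    rw [this, eχ]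
    ring
  rw [e]
  exact mul_nonneg (by norm_num) key

end meas

end Claimed.Agent.R315
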